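import Vale.Agent.P093.N.VL

/-!
# P093, block N4-F: split maps and null maps

`U.Spl q` for `q : B ⟶ Q`: the unit map `B ⟶ E ⊗ B` factors through `q`. Split maps are stable
under composition and tensor products. If `A ⟶ B ⟶ Q` is distinguished, then `B ⟶ Q` is split
iff `A ⟶ B` is `E`-null.
-/

open CategoryTheory MonoidalCategory Limits Pretriangulated

set_option linter.unusedSectionVars false

universe v u

namespace Vale.Agent.P093.N.TT

open Vale.Agent.P251.T Vale.Agent.P251.S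

variable {T : Type u} [Category.{v} T] [Preadditive T] [HasZeroObject T]
    [HasShift T ℤ] [∀ n : ℤ, (shiftFunctor T n).Additive] [Pretriangulated T]
    [MonoidalCategory T] [SymmetricCategory T] [TensorTriangulated T]

namespace UTri

variable (U : UTri T)

/-- `q : B ⟶ Q` is `E`-split: the unit map of `B` factors through `q`. -/
def Spl {B Q : T} (q : B ⟶ Q) : Prop := ∃ h : Q ⟶ U.E ⊗ B, q ≫ h = U.η B

variable {U}

lemma Spl.null {A B Q : T} {i : A ⟶ B} {q : B ⟶ Q} (hq : U.Spl q) (h : i ≫ q = 0) :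
    U.Null i := by
  obtain ⟨k, hk⟩ := hq
  unfold Null
  rw [← hk, ← Category.assoc, h, zero_comp]

/-- Only the exactness of the contravariant functors at `B` is used. -/
lemma Null.spl' {A B Q : T} {i : A ⟶ B} {q : B ⟶ Q}
    (hex : ∀ (Z : T) (f : B ⟶ Z), i ≫ f = 0 → ∃ g : Q ⟶ Z, q ≫ g = f) (h : U.Null i) :
    U.Spl q := hex _ _ h

lemma Null.spl {A B Q : T} {i : A ⟶ B} {q : B ⟶ Q} {δ : Q ⟶ A⟦(1 : ℤ)⟧}
    (hΔ : Triangle.mk i q δ ∈ distTriang T) (h : U.Null i) : U.Spl q := by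
  obtain ⟨g, hg⟩ := Triangle.yoneda_exact₂ _ hΔ (U.η B) h
  exact ⟨g, hg.symm⟩

lemma Spl.null_of_dist {A B Q : T} {i : A ⟶ B} {q : B ⟶ Q} {δ : Q ⟶ A⟦(1 : ℤ)⟧}
    (hΔ : Triangle.mk i q δ ∈ distTriang T) (h : U.Spl q) : U.Null i :=
  h.null (comp_distTriang_mor_zero₁₂ _ hΔ)

lemma Spl.null_δ {A B Q : T} {i : A ⟶ B} {q : B ⟶ Q} {δ : Q ⟶ A⟦(1 : ℤ)⟧}
    (hΔ : Triangle.mk i q δ ∈ distTriang T) (h : U.Spl i) : U.Null δ := by
  obtain ⟨g, hg⟩ := h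
  have h0 : δ ≫ i⟦(1 : ℤ)⟧' = 0 := comp_distTriang_mor_zero₃₁ _ hΔ
  unfold Null
  rw [← η_shift, ← hg, Functor.map_comp, Category.assoc, ← Category.assoc, h0, zero_comp]

/-- a map is split if it becomes split after precomposition with an isomorphism -/
lemma Spl.of_iso_comp {A B Q : T} {e : A ⟶ B} [IsIso e] {q : B ⟶ Q} (h : U.Spl (e ≫ q)) :
    U.Spl q := by
  obtain ⟨g, hg⟩ := h
  refine ⟨g ≫ U.E ◁ e, ?_⟩
  rw [← cancel_epi e, ← Category.assoc q, ← Category.assoc, ← Category.assoc, hg, η_natural]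

/-- a map is split if it becomes split after any composition -/
lemma Spl.of_comp {B Q P : T} {q : B ⟶ Q} {p : Q ⟶ P} (h : U.Spl (q ≫ p)) : U.Spl q := by
  obtain ⟨g, hg⟩ := h
  exact ⟨p ≫ g, by rw [← Category.assoc, hg]⟩

lemma spl_of_isIso {B Q : T} (q : B ⟶ Q) [IsIso q] : U.Spl q :=
  ⟨inv q ≫ U.η B, by rw [IsIso.hom_inv_id_assoc]⟩

lemma Spl.comp {B Q P : T} {q : B ⟶ Q} {p : Q ⟶ P} (hq : U.Spl q) (hp : U.Spl p) :
    U.Spl (q ≫ p) := by
  obtain ⟨h, hh⟩ := hq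
  obtain ⟨k, hk⟩ := hp
  obtain ⟨r, hr⟩ := inj_E_tensor (U := U) B
  refine ⟨k ≫ U.E ◁ h ≫ r, ?_⟩
  calc (q ≫ p) ≫ k ≫ U.E ◁ h ≫ r = q ≫ (p ≫ k) ≫ U.E ◁ h ≫ r := by
        simp only [Category.assoc]
    _ = q ≫ (h ≫ U.η (U.E ⊗ B)) ≫ r := by rw [hk, U.η_natural, Category.assoc]
    _ = (q ≫ h) ≫ U.η (U.E ⊗ B) ≫ r := by simp only [Category.assoc]
    _ = U.η B := by rw [hr, hh, Category.comp_id]

lemma Spl.whiskerRight {B Q : T} {q : B ⟶ Q} (hq : U.Spl q) (Z : T) : U.Spl (q ▷ Z) := by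
  obtain ⟨h, hh⟩ := hq
  refine ⟨h ▷ Z ≫ (α_ U.E B Z).hom, ?_⟩
  rw [← Category.assoc, ← comp_whiskerRight, hh, η_tensor]

lemma Spl.whiskerLeft {B Q : T} {q : B ⟶ Q} (hq : U.Spl q) (Z : T) : U.Spl (Z ◁ q) := by
  have h1 : Z ◁ q = (β_ Z B).hom ≫ q ▷ Z ≫ (β_ Z Q).inv := by
    rw [← Category.assoc, ← BraidedCategory.braiding_naturality_right, Category.assoc,
      Iso.hom_inv_id, Category.comp_id]
  rw [h1]
  exact (spl_of_isIso _).comp ((hq.whiskerRight Z).comp (spl_of_isIso _))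

lemma Spl.tensor {B Q B' Q' : T} {q : B ⟶ Q} {q' : B' ⟶ Q'} (hq : U.Spl q) (hq' : U.Spl q') :
    U.Spl (q ⊗ₘ q') := by
  rw [MonoidalCategory.tensorHom_def]
  exact (hq.whiskerRight B').comp (hq'.whiskerLeft Q)

/-- **The null step for products.** If `A' ⟶ A ⊗ Y` composed with the tensor product of two
split maps is zero, then `A' ⟶ A ⊗ Y` is null. -/
lemma null_of_tensor {A' A Q Y P : T} {i : A' ⟶ A ⊗ Y} {q : A ⟶ Q} {p : Y ⟶ P}
    (hq : U.Spl q) (hp : U.Spl p) (h : i ≫ (q ⊗ₘ p) = 0) : U.Null i :=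
  (hq.tensor hp).null h

end UTri

end Vale.Agent.P093.N.TT
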