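import Vale.Agent.P093.Final.Good
import Vale.Agent.P093.N4.Null
import Vale.Agent.P251.G.CellInst
import Vale.Agent.P251.St.ToFunctor
import Vale.Agent.P093.U.ExtractLR

/-!
# P093, block N4: the predicate `ThGood`

For `h : Final.ThGood C w`:

* `isClosedEmbedding_of_thGood` : `w` is a closed embedding;
* `fc_of_thGood`, `fcL_of_thGood` : `C` is a finite cell space;
* `spl_of_thGood` : the map of suspension spectra of `w` is `E`-split as soon as all fibre
  inclusions of the Grassmannian Thom spaces are.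
-/

open CategoryTheory MonoidalCategory Limits Pretriangulated Topology Filter

set_option linter.unusedSectionVars false

universe v u

namespace Vale.Agent.P093.N4

open Vale.Agent.P251 Vale.Agent.P251.G Vale.Agent.P251.G.LC Vale.Agent.P251.I
open Vale.Agent.P251.T
open Vale.Agent.P093.N.TT
open Vale.Agent.P251.St (Space toLC ofLC toHom ofHom)
open Vale.Agent.P093.Final

/-! ### Proper maps -/

/-- a map whose extension to the one-point compactifications is a morphism of `LC` is continuous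
and proper -/
theorem proper_of_app {X Y : LC} (k : X ⟶ Y) (g : X → Y)
    (h : ∀ x : X, app k (x : OnePoint X) = (g x : OnePoint Y)) :
    Continuous g ∧ Tendsto g (cocompact X) (cocompact Y) := by
  have hc : Continuous fun x : X => (g x : OnePoint Y) :=
    ((continuous_app k).comp (OnePoint.continuous_coe (X := X))).congr h
  refine ⟨OnePoint.isOpenEmbedding_coe.isInducing.continuous_iff.mpr hc, ?_⟩
  have h1 : Tendsto (fun x : X => app k (x : OnePoint X)) (cocompact X)
      (𝓝 (app k OnePoint.infty)) := by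
    refine ((continuous_app k).tendsto _).comp ?_
    rw [← coclosedCompact_eq_cocompact]
    exact OnePoint.tendsto_coe_infty
  rw [app_infty] at h1
  rw [← coclosedCompact_eq_cocompact (X := Y), ← OnePoint.comap_coe_nhds_infty,
    tendsto_comap_iff]
  exact h1.congr h

theorem isClosedEmbedding_of_app {X Y : LC} (k : X ⟶ Y) (g : X → Y)
    (h : ∀ x : X, app k (x : OnePoint X) = (g x : OnePoint Y)) (hg : Function.Injective g) :
    IsClosedEmbedding g := by
  obtain ⟨h1, h2⟩ := proper_of_app k g h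
  exact .of_continuous_injective_isClosedMap h1 hg
    (isProperMap_iff_tendsto_cocompact.mpr ⟨h1, h2⟩).isClosedMap

/-! ### The fibre inclusion -/

section space

variable {n : ℕ} {J : Type} [Fintype J] [DecidableEq J] (f : Fin n → J)
  (hf : Function.Injective f)

/-- the fibre inclusion `ℂ^n ⟶ Th n J` of the library -/
noncomputable abbrev fibL : LC.of (Fin n → ℂ) ⟶ LC.of (Th n J) :=
  Th.incl' (I := Fin n) (Fintype.card_fin n) ≫ Th.inj (n := n) f hf

theorem app_fibL_coe (v : Fin n → ℂ) :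
    app (fibL f hf) (v : OnePoint (Fin n → ℂ)) = (thFib f hf v : OnePoint (Th n J)) := by
  rw [app_comp, Th.app_incl'_coe]
  rfl

theorem injective_thFib : Function.Injective (thFib f hf) := by
  intro v v' h
  have h1 := congrArg Th.v h
  funext i
  have h2 := congrFun h1 (f i)
  simp only [thFib, Th.mapFun_v, Th.mk_v] at h2
  rwa [injMat_mulVec f hf, injMat_mulVec f hf] at h2

theorem isClosedEmbedding_thFib : IsClosedEmbedding (thFib f hf) :=
  isClosedEmbedding_of_app (fibL f hf) _ (app_fibL_coe f hf) (injective_thFib f hf)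

/-- the space `ℂ^n` is a finite cell space -/
theorem fc_CC (n : ℕ) : FC (LC.of (Fin n → ℂ)) := by
  have e : (Fin n → ℂ) ≃L[ℝ] (Fin (Module.finrank ℝ (Fin n → ℂ)) → ℝ) :=
    ContinuousLinearEquiv.ofFinrankEq (by simp)
  exact (FC.sph _).of_homeo e.symm.toHomeomorph

end space

/-! ### Good pairs -/

section good

variable {t : ℕ} {C : Space} {w : (Fin t → ℝ) → C.carrier}

theorem isClosedEmbedding_of_thGood (h : ThGood C w) : IsClosedEmbedding w := by
  obtain ⟨n, J, _, _, f, hf, ψ, e, hw⟩ := h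
  have h1 : w = ψ.symm ∘ thFib f hf ∘ e := by
    funext v
    rw [Function.comp_apply, Function.comp_apply, ← hw, ψ.symm_apply_apply]
  rw [h1]
  exact ψ.symm.isClosedEmbedding.comp ((isClosedEmbedding_thFib f hf).comp
    e.toHomeomorph.isClosedEmbedding)

theorem fcL_of_thGood (h : ThGood C w) : LC.FC (toLC C) := by
  obtain ⟨n, J, _, _, f, hf, ψ, e, hw⟩ := h
  exact (Cell.fc_th n J).of_homeo ψ.symm

theorem fc_of_thGood (h : ThGood C w) : St.FC C := (St.fc_iff C).mpr (fcL_of_thGood h)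

/-- a closed embedding `ℝ^t → C` as a morphism of `LC` -/
abbrev unitL (C : Space) (w : (Fin t → ℝ) → C.carrier) (hw : IsClosedEmbedding w) :
    Sph t ⟶ toLC C := ofClosed (X := Sph t) (Y := toLC C) w hw

theorem unitL_eq (h : ThGood C w) (hw : IsClosedEmbedding w) :
    ∃ (n : ℕ) (J : Type) (_ : Fintype J) (_ : DecidableEq J) (f : Fin n → J)
      (hf : Function.Injective f) (a : Sph t ≅ LC.of (Fin n → ℂ)) (b : LC.of (Th n J) ≅ toLC C),
      unitL C w hw = a.hom ≫ fibL f hf ≫ b.hom := by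
  obtain ⟨n, J, i1, i2, f, hf, ψ, e, hw'⟩ := h
  refine ⟨n, J, i1, i2, f, hf, ofHomeo (X := Sph t) (Y := LC.of (Fin n → ℂ)) e.toHomeomorph,
    ofHomeo (X := LC.of (Th n J)) (Y := toLC C) ψ.symm, ?_⟩
  apply LC.hom_ext
  intro x
  rw [app_comp, app_comp, app_ofClosed_coe, app_ofHomeo_hom_coe, app_fibL_coe,
    app_ofHomeo_hom_coe]
  congr 1
  have h1 := hw' x
  exact (ψ.symm_apply_eq.mpr h1.symm).symm

end good

section split

variable {T : Type u} [Category.{v} T] [Preadditive T] [HasZeroObject T]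
    [HasShift T ℤ] [∀ n : ℤ, (shiftFunctor T n).Additive] [Pretriangulated T]
    [MonoidalCategory T] [SymmetricCategory T] [TensorTriangulated T]

/-- the fibre inclusions of all Grassmannian Thom spaces are `E`-split -/
def ThSpl (F : SpaceFunctor T) (U : UTri T) : Prop :=
  ∀ (n : ℕ) (J : Type) [Fintype J] [DecidableEq J] (f : Fin n → J) (hf : Function.Injective f),
    U.Spl (F.S.map (FCat.hom (fibL f hf) :
      (⟨LC.of (Fin n → ℂ), fc_CC n⟩ : FCat) ⟶ ⟨LC.of (Th n J), Cell.fc_th n J⟩))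

variable {t : ℕ} {C : Space} {w : (Fin t → ℝ) → C.carrier}

theorem spl_of_thGood {F : SpaceFunctor T} {U : UTri T} (hT : ThSpl F U) (h : ThGood C w)
    (hw : IsClosedEmbedding w) (hC : LC.FC (toLC C)) :
    U.Spl (F.S.map (FCat.hom (unitL C w hw) : SphF t ⟶ (⟨toLC C, hC⟩ : FCat))) := by
  obtain ⟨n, J, _, _, f, hf, a, b, hab⟩ := unitL_eq h hw
  have h1 : (FCat.hom (unitL C w hw) : SphF t ⟶ (⟨toLC C, hC⟩ : FCat)) =
      (FCat.hom a.hom : SphF t ⟶ (⟨LC.of (Fin n → ℂ), fc_CC n⟩ : FCat)) ≫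
      (FCat.hom (fibL f hf) :
      (⟨LC.of (Fin n → ℂ), fc_CC n⟩ : FCat) ⟶ ⟨LC.of (Th n J), Cell.fc_th n J⟩) ≫
      (FCat.hom b.hom : (⟨LC.of (Th n J), Cell.fc_th n J⟩ : FCat) ⟶ ⟨toLC C, hC⟩) := by
    rw [hab]
    rfl
  have ha : IsIso (FCat.hom a.hom : SphF t ⟶ (⟨LC.of (Fin n → ℂ), fc_CC n⟩ : FCat)) := by
    refine ⟨⟨FCat.hom (X := ⟨LC.of (Fin n → ℂ), fc_CC n⟩) (Y := SphF t) a.inv, ?_, ?_⟩⟩
    · exact congrArg ObjectProperty.homMk a.hom_inv_id
    · exact congrArg ObjectProperty.homMk a.inv_hom_id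
  have hb : IsIso (FCat.hom b.hom : (⟨LC.of (Th n J), Cell.fc_th n J⟩ : FCat) ⟶ ⟨toLC C, hC⟩) := by
    refine ⟨⟨FCat.hom (X := ⟨toLC C, hC⟩) (Y := ⟨LC.of (Th n J), Cell.fc_th n J⟩) b.inv, ?_, ?_⟩⟩
    · exact congrArg ObjectProperty.homMk b.hom_inv_id
    · exact congrArg ObjectProperty.homMk b.inv_hom_id
  rw [h1, F.S.map_comp, F.S.map_comp]
  exact (UTri.spl_of_isIso _).comp ((hT n J f hf).comp (UTri.spl_of_isIso _))

end split

end Vale.Agent.P093.N4
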