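import Vale.Agent.P251.M.Conn
import Vale.Agent.P251.S.Tel

/-!
# P093, part N (Step 4): finite complexes with cells of dimension at most `n`

`DimLE n W` : `W` is built from finitely many spheres `𝟙⟦k⟧` with `k ≤ n` by extensions.
-/

open CategoryTheory MonoidalCategory Limits Pretriangulated ZeroObject

set_option linter.unusedSectionVars false

universe v u

namespace Vale.Agent.P093.N.LR

open Vale.Agent.P251.T Vale.Agent.P251.M Vale.Agent.P251.S

variable {T : Type u} [Category.{v} T] [Preadditive T] [HasZeroObject T]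
    [HasShift T ℤ] [∀ n : ℤ, (shiftFunctor T n).Additive] [Pretriangulated T]
    [MonoidalCategory T]

/-- `W` is a finite complex with cells of dimension at most `n`. -/
inductive DimLE : ℤ → T → Prop
  | zero {n : ℤ} {X : T} (h : IsZero X) : DimLE n X
  | sphere {n : ℤ} (k : ℤ) (hk : k ≤ n) : DimLE n ((𝟙_ T)⟦k⟧)
  | ext {n : ℤ} (Δ : Triangle T) (hΔ : Δ ∈ distTriang T) (h₁ : DimLE n Δ.obj₁)
      (h₃ : DimLE n Δ.obj₃) : DimLE n Δ.obj₂

namespace DimLE

lemma of_iso {n : ℤ} {X Y : T} (hX : DimLE n X) (e : X ≅ Y) : DimLE n Y := by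
  have h0 : IsZero (0 : T) := isZero_zero T
  refine ext (Triangle.mk e.hom (0 : Y ⟶ 0) 0) ?_ hX (zero h0)
  rw [Triangle.distinguished_iff_of_isZero₃ _ h0]
  change IsIso e.hom
  infer_instance

lemma mono {m n : ℤ} (h : m ≤ n) {X : T} (hX : DimLE m X) : DimLE n X := by
  induction hX with
  | zero h' => exact zero h'
  | sphere k hk => exact sphere k (hk.trans h)
  | ext Δ hΔ _ _ ih₁ ih₃ => exact ext Δ hΔ ih₁ ih₃

lemma shift' {n : ℤ} {X : T} (hX : DimLE n X) : ∀ (m p : ℤ), n + m = p → DimLE p (X⟦m⟧) := by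
  induction hX with
  | zero h' =>
    intro m p _
    exact zero (Functor.map_isZero (shiftFunctor T m) h')
  | sphere k hk =>
    intro m p h
    exact (sphere (k + m) (by omega)).of_iso
      ((shiftFunctorAdd' T k m (k + m) rfl).app (𝟙_ T))
  | ext Δ hΔ _ _ ih₁ ih₃ =>
    intro m p h
    exact ext _ (Triangle.shift_distinguished Δ hΔ m) (ih₁ m p h) (ih₃ m p h)

lemma shift {n : ℤ} {X : T} (hX : DimLE n X) (m : ℤ) : DimLE (n + m) (X⟦m⟧) :=
  hX.shift' m _ rfl

/-- the third object of a triangle -/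
lemma ext₃ {n : ℤ} (Δ : Triangle T) (hΔ : Δ ∈ distTriang T) (h₁ : DimLE (n - 1) Δ.obj₁)
    (h₂ : DimLE n Δ.obj₂) : DimLE n Δ.obj₃ :=
  ext _ (rot_of_distTriang _ hΔ) h₂ (h₁.shift' 1 n (by ring))

/-- the first object of a triangle -/
lemma ext₁ {n : ℤ} (Δ : Triangle T) (hΔ : Δ ∈ distTriang T) (h₂ : DimLE n Δ.obj₂)
    (h₃ : DimLE (n + 1) Δ.obj₃) : DimLE n Δ.obj₁ :=
  ext _ (inv_rot_of_distTriang _ hΔ) (h₃.shift' (-1) n (by ring)) h₂

/-- maps from a finite complex to a highly connected object vanish -/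
lemma hom_eq_zero {m n : ℤ} (h : n < m) {W X : T} (hW : DimLE n W) (hX : Conn m X)
    (f : W ⟶ X) : f = 0 := by
  induction hW with
  | zero h' => exact h'.eq_of_src _ _
  | sphere k hk => exact hX k (by omega) f
  | ext Δ hΔ _ _ ih₁ ih₃ =>
    obtain ⟨g, hg⟩ := Triangle.yoneda_exact₂ Δ hΔ f (ih₁ _)
    rw [hg, ih₃ g, comp_zero]

lemma isCpt [HasCoproducts.{0} T] (hS : IsCpt (𝟙_ T)) {n : ℤ} {W : T} (hW : DimLE n W) :
    IsCpt W := by
  induction hW with
  | zero h' => exact isCpt_of_isZero h'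
  | sphere k hk => exact hS.shift k
  | ext Δ hΔ _ _ ih₁ ih₃ => exact IsCpt.of_dist₂ Δ hΔ ih₁ ih₃

section Tensor

variable [SymmetricCategory T] [TensorTriangulated T]

lemma tensor {m n : ℤ} {X Y : T} (hX : DimLE m X) (hY : DimLE n Y) (p : ℤ)
    (h : m + n = p) : DimLE p (X ⊗ Y) := by
  induction hY with
  | zero h' =>
    refine zero ?_
    rw [IsZero.iff_id_eq_zero, ← whiskerLeft_id, h'.eq_of_src (𝟙 _) 0,
      MonoidalPreadditive.whiskerLeft_zero]
  | sphere k hk =>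
    exact ((hX.shift k).mono (by omega)).of_iso (tensorUnitShiftIso X k).symm
  | ext Δ hΔ _ _ ih₁ ih₃ =>
    exact ext _ (TensorTriangulated.distinguished X Δ hΔ) ih₁ ih₃

end Tensor

end DimLE

end Vale.Agent.P093.N.LR
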