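import Vale.Agent.P093.N.VL3
import Vale.Agent.P093.N4.Dim
import Vale.Agent.P093.N.PLocSp

/-!
# P093, part N (Step 4): absolute vanishing lines from the local spheres

* `AVL.of_vl` : abstract form
* `avl_of_spheres` : vanishing lines for all `p`-local spheres, with constants independent of `p`
  for large `p`, give the vanishing of all long composites of `E`-null maps into spheres.
-/

open CategoryTheory MonoidalCategory Limits Pretriangulated

set_option linter.unusedSectionVars false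

universe v u

namespace Vale.Agent.P093.N.LR

open Vale.Agent.P251.T Vale.Agent.P251.S Vale.Agent.P093.N.TT Vale.Agent.P093.PLoc

section abs

variable {T : Type u} [Category.{v} T] [Preadditive T] [HasZeroObject T]
    [HasShift T ℤ] [∀ n : ℤ, (shiftFunctor T n).Additive] [Pretriangulated T]
    [MonoidalCategory T] [SymmetricCategory T] [TensorTriangulated T]

variable {U : UTri T} {D : ℤ → T → Prop}

/-- vanishing lines for the finitely many small primes -/
lemma vl_finite {Sp : ℕ → T} {ι : ∀ p, 𝟙_ T ⟶ Sp p} {b : ℤ} (p₀ : ℕ)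
    (h : ∀ p : ℕ, p.Prime → p < p₀ → U.VL D b (Sp p)) :
    ∃ (r : ℕ) (c : ℤ), ∀ (s : ℕ) (n : ℤ) (K : T), D n K → n + c < b * s →
      ∀ g : K ⟶ 𝟙_ T, U.AF (s + r) g → ∀ p : ℕ, p.Prime → p < p₀ → g ≫ ι p = 0 := by
  induction p₀ with
  | zero => exact ⟨0, 0, fun s n K _ _ g _ p _ hp => absurd hp (Nat.not_lt_zero p)⟩
  | succ p₀ ih =>
    obtain ⟨r, c, hrc⟩ := ih fun p hp hlt => h p hp (by omega)
    by_cases hp₀ : p₀.Prime
    · obtain ⟨r', c', h'⟩ := (h p₀ hp₀ (by omega)).comp_eq_zero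
      refine ⟨max r r', max c c', fun s n K hK hn g hg p hp hlt => ?_⟩
      have hc := le_max_left c c'
      have hc' := le_max_right c c'
      rcases Nat.lt_succ_iff_lt_or_eq.1 hlt with hlt | rfl
      · exact hrc s n K hK (by linarith) g (hg.of_le (by omega)) p hp hlt
      · exact h' s n K _ hK (by linarith) g (hg.of_le (by omega)) _
    · refine ⟨r, c, fun s n K hK hn g hg p hp hlt => ?_⟩
      rcases Nat.lt_succ_iff_lt_or_eq.1 hlt with hlt | rfl
      · exact hrc s n K hK hn g hg p hp hlt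
      · exact absurd hp hp₀

/-- **Local to global** -/
theorem AVL.of_vl {Sp : ℕ → T} (ι : ∀ p, 𝟙_ T ⟶ Sp p) {b : ℤ} (p₀ r₀ : ℕ) (c₀ : ℤ)
    (hloc : ∀ (n : ℤ) (K : T), D n K → ∀ g : K ⟶ 𝟙_ T,
      (∀ p : ℕ, p.Prime → g ≫ ι p = 0) → g = 0)
    (h : ∀ p : ℕ, p.Prime → p < p₀ → U.VL D b (Sp p))
    (hbig : ∀ p : ℕ, p.Prime → p₀ ≤ p → U.VLrc D b r₀ c₀ (Sp p)) : AVL U D b := by
  obtain ⟨r, c, hrc⟩ := vl_finite (U := U) (D := D) (ι := ι) p₀ h
  refine ⟨max r r₀, max c c₀, fun s n K hK hn g hg => hloc n K hK g fun p hp => ?_⟩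
  have hc := le_max_left c c₀
  have hc' := le_max_right c c₀
  rcases lt_or_ge p p₀ with hlt | hge
  · exact hrc s n K hK (by linarith) g (hg.of_le (by omega)) p hp hlt
  · exact (hbig p hp hge).comp_eq_zero s n K _ hK (by linarith) g (hg.of_le (by omega)) _

end abs

section gen

variable {T : Type u} [Category.{v} T] [Preadditive T] [HasZeroObject T] [HasShift T ℤ]
  [∀ n : ℤ, (shiftFunctor T n).Additive] [Pretriangulated T] [IsTriangulated T]
  [MonoidalCategory T] [SymmetricCategory T] [TensorTriangulated T] [MonoidalClosed T]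
  [HasCoproducts.{0} T] [HasProducts.{0} T] [StableCat T]

variable {U : UTri T}

/-- **Absolute vanishing lines** from vanishing lines for the local spheres: for every slope `b`,
all `p < p₀` arbitrary, the primes `p ≥ p₀` with constants `r₀`, `c₀` independent of `p`. -/
theorem avl_of_spheres {b : ℤ} (p₀ r₀ : ℕ) (c₀ : ℤ)
    (h : ∀ p : ℕ, p.Prime → p < p₀ → U.VL DimLE b (Sp T p))
    (hbig : ∀ p : ℕ, p.Prime → p₀ ≤ p → U.VLrc DimLE b r₀ c₀ (Sp T p)) : AVL U DimLE b := by
  refine AVL.of_vl (fun p => eta T p) p₀ r₀ c₀ (fun n K hK g hg => ?_) h hbig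
  refine eq_zero_of_forall_prime (hK.isCpt isCpt_unit) g fun p hp => ?_
  unfold etaX
  rw [unitors_inv_equal, ← rightUnitor_inv_naturality, ← Category.assoc, hg p hp, zero_comp]

end gen

end Vale.Agent.P093.N.LR
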