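import Vale.Agent.P093.N4.ThSplit
import Vale.Agent.P093.N4.GoodTh
import Vale.Agent.P093.N.VL3

/-!
# P093, block N4: the fibre inclusions of Thom spaces are split over `MU`

* `thSpl_of_thSplit` : `TS.ThSplit F R` implies `ThSpl F (UTri.ofMon R)`;
* `exists_muAll_thSpl` : `MU` with all its properties, in this form.
-/

open CategoryTheory MonoidalCategory Limits Pretriangulated

set_option linter.unusedSectionVars false

universe v u

namespace Vale.Agent.P093.N4

open Vale.Agent.P251 Vale.Agent.P251.G Vale.Agent.P251.G.LC Vale.Agent.P251.I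
open Vale.Agent.P251.T Vale.Agent.P251.M Vale.Agent.P251.S
open Vale.Agent.P093.N.TT

variable {T : Type u} [Category.{v} T] [Preadditive T] [HasZeroObject T]
    [HasShift T ℤ] [∀ n : ℤ, (shiftFunctor T n).Additive] [Pretriangulated T]
    [MonoidalCategory T] [SymmetricCategory T] [TensorTriangulated T]

theorem thSpl_of_thSplit {F : SpaceFunctor T} {R : T} [MonObj R] (h : TS.ThSplit F R) :
    ThSpl F (UTri.ofMon R) := fun n J _ _ f hf => by
  obtain ⟨g, hg⟩ := h n J f hf (fc_CC n) (Cell.fc_th n J)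
  exact ⟨g, hg⟩

/-- **`MU` with all its properties.** -/
theorem exists_muAll_thSpl [IsTriangulated T] [MonoidalClosed T] [HasCoproducts.{0} T]
    [HasProducts.{0} T] [StableCat T] (F : SpaceFunctor T) (e : F.S.obj CCF ≅ (stdEven T).L) :
    ∃ D : MUData T, MUUniv e D ∧ N0.MUAll D ∧ ThSpl F (UTri.ofMon D.R) := by
  obtain ⟨D, h1, h2, h3⟩ := TS.exists_muAll_thSplit F e
  exact ⟨D, h1, h2, thSpl_of_thSplit h3⟩

end Vale.Agent.P093.N4
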