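import Vale.Agent.P093.N4.Steps
import Vale.Agent.P251.H.LCone
import Vale.Agent.P093.U.Extract

/-!
# P093, block N4-F: the pair `(Y, {l ≤ 0})` of a closed embedding `w : Z → C`

`Y = {(c, l) : l ≥ 0 or c ∈ im w}`.

* `isIso_map_unit` : the inclusion `Z × ℝ → Y` is invertible in `T`;
* `spl_collapse` : if `S w` is `E`-split, then so is the collapse `Y ⟶ Y/{l ≤ 0}`.
-/

open CategoryTheory MonoidalCategory Limits Pretriangulated Topology OnePoint

set_option linter.unusedSectionVars false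

universe v u

namespace Vale.Agent.P093.N4

open Vale.Agent.P251 Vale.Agent.P251.G Vale.Agent.P251.G.LC Vale.Agent.P251.I
  Vale.Agent.P251.T Vale.Agent.P093.N.TT Vale.Agent.P093.N.LR Vale.Agent.P093.L192
  Vale.Agent.P251.H.LP

section half

/-- the collapse `ℝ ⟶ (0, ∞) ≅ ℝ` -/
noncomputable def logRR : RR ⟶ RR := ofOpen (X := RR) (Y := RR) Real.exp Real.isOpenEmbedding_exp

theorem cofib_zeroHH : Cofib zeroHH := cofib_point_zero

theorem cofib_incPos : Cofib incPos := cofib_zeroHH.pushout isPushout_RR.flip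

theorem cofib_incNeg : Cofib incNeg := cofib_zeroHH.pushout isPushout_RR

theorem isHEquiv_logRR : IsHEquiv logRR := by
  have h1 : IsCompl (Set.range (fun x : NNReal => -(x : ℝ))) (Set.range Real.exp) := by
    have h2 : Set.range (fun x : NNReal => -(x : ℝ)) = Set.Iic 0 := by
      ext x
      constructor
      · rintro ⟨y, rfl⟩
        exact neg_nonpos.mpr y.2
      · intro hx
        exact ⟨⟨-x, neg_nonneg.mpr hx⟩, neg_neg x⟩
    rw [h2, Real.range_exp, ← Set.compl_Iic]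
    exact isCompl_compl
  have h2 := cofMap_cofClosedOpen (Z := HH) (Y := RR) (U := RR) (fun x : NNReal => -(x : ℝ))
    isClosedEmbedding_negCoe Real.exp Real.isOpenEmbedding_exp h1
  have h3 : IsHEquiv (cofMap incNeg) := isHEquiv_cofMap cofib_incNeg contr_HH
  unfold logRR
  rw [← h2]
  exact h3.comp (@isHEquiv_of_iso _ _ _ (Iso.isIso_hom _))

theorem isHEquiv_whiskerLeft {X Y : LC} {f : X ⟶ Y} (h : IsHEquiv f) (Z : LC) :
    IsHEquiv (Z ◁ f) := by
  obtain ⟨g, h1, h2⟩ := h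
  refine ⟨Z ◁ g, ?_, ?_⟩
  · rw [← MonoidalCategory.whiskerLeft_comp]
    exact (h1.whiskerLeft Z).trans (Homotopic.of_eq (by simp))
  · rw [← MonoidalCategory.whiskerLeft_comp]
    exact (h2.whiskerLeft Z).trans (Homotopic.of_eq (by simp))

end half

section pair

variable {C Z : LC} (w : Z → C) (hw : IsClosedEmbedding w)

/-- the set `{(c, l) : l ≥ 0 or c ∈ im w}` -/
def cyl : Set (C ⊗ RR : LC) := {q : C × ℝ | 0 ≤ q.2 ∨ q.1 ∈ Set.range w}

include hw in
theorem isClosed_cyl : IsClosed (cyl w) := by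
  have h1 : IsClosed {q : C × ℝ | 0 ≤ q.2} := isClosed_le continuous_const continuous_snd
  have h2 : IsClosed {q : C × ℝ | q.1 ∈ Set.range w} :=
    hw.isClosed_range.preimage continuous_fst
  exact h1.union h2

/-- the space `Y = {(c, l) : l ≥ 0 or c ∈ im w}` -/
def cylLC : LC := sub (isClosed_cyl w hw)

/-- the subset `{l ≤ 0}` of `Y` -/
def low : Set (cylLC w hw) := {y | (y.1 : C × ℝ).2 ≤ 0}

theorem isClosed_low : IsClosed (low w hw) :=
  isClosed_le ((continuous_snd (X := C) (Y := ℝ)).comp continuous_subtype_val) continuous_const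

/-- the map `C × [0, ∞) → Y` -/
def topFun (p : (C ⊗ HH : LC)) : cylLC w hw := ⟨((p.1, (p.2 : ℝ)) : C × ℝ), Or.inl p.2.2⟩

theorem isClosedEmbedding_topFun : IsClosedEmbedding (topFun w hw) := by
  have h1 : IsClosedEmbedding (fun p : C × NNReal => ((p.1, (p.2 : ℝ)) : C × ℝ)) :=
    IsClosedEmbedding.id.prodMap NNReal.isClosedEmbedding_coe
  exact ((isClosedEmbedding_subι (isClosed_cyl w hw)).of_comp_iff).mp h1

/-- the map `Z × ℝ → Y` -/
def unitFun (p : (Z ⊗ RR : LC)) : cylLC w hw := ⟨((w p.1, p.2) : C × ℝ), Or.inr ⟨p.1, rfl⟩⟩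

theorem isClosedEmbedding_unitFun : IsClosedEmbedding (unitFun w hw) := by
  have h1 : IsClosedEmbedding (fun p : Z × ℝ => ((w p.1, p.2) : C × ℝ)) :=
    hw.prodMap IsClosedEmbedding.id
  exact ((isClosedEmbedding_subι (isClosed_cyl w hw)).of_comp_iff).mp h1

/-- the morphism `C × [0, ∞) ⟶ Y` -/
def topHom : C ⊗ HH ⟶ cylLC w hw := ofClosed (topFun w hw) (isClosedEmbedding_topFun w hw)

/-- the morphism `Z × ℝ ⟶ Y` -/
def unitHom : Z ⊗ RR ⟶ cylLC w hw := ofClosed (unitFun w hw) (isClosedEmbedding_unitFun w hw)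

theorem isPushout_unit :
    IsPushout (Z ◁ incPos) (ofClosed w hw ▷ HH) (unitHom w hw) (topHom w hw) := by
  unfold incPos unitHom topHom
  rw [ofClosed_whiskerRight, ofClosed_whiskerLeft]
  refine isPushout_closed (D := cylLC w hw) _ _ _ _ ?_ ?_ ?_
  · intro a
    rfl
  · rintro ⟨⟨c, l⟩, hl | ⟨z, hz⟩⟩
    · exact Or.inr ⟨((c, ⟨l, hl⟩) : C × NNReal), rfl⟩
    · exact Or.inl ⟨((z, l) : Z × ℝ), Subtype.ext (Prod.ext hz rfl)⟩
  · rintro ⟨z, l⟩ ⟨⟨c, r⟩, h1⟩
    have h2 : (r : ℝ) = l := congrArg (fun y : cylLC w hw => (y.1 : C × ℝ).2) h1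
    exact ⟨((z, r) : Z × NNReal), Prod.ext rfl h2⟩

theorem cofib_topHom : Cofib (topHom w hw) :=
  (cofib_incPos.whiskerLeft Z).pushout (isPushout_unit w hw)

include hw in
theorem fc_cylLC (hC : FC C) (hZ : FC Z) : FC (cylLC w hw) :=
  FC.pushout (hZ.tensor FC.halfLine) hZ.susp (hC.tensor FC.halfLine) (cofib_incPos.whiskerLeft Z)
    (isPushout_unit w hw)

/-- the open embedding `C × ℝ → Y`, `(c, x) ↦ (c, exp x)` -/
noncomputable def openFun (p : (C ⊗ RR : LC)) : cylLC w hw :=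
  ⟨((p.1, Real.exp p.2) : C × ℝ), Or.inl (Real.exp_pos _).le⟩

theorem mem_range_openFun (y : cylLC w hw) :
    y ∈ Set.range (openFun w hw) ↔ 0 < (y.1 : C × ℝ).2 := by
  constructor
  · rintro ⟨p, rfl⟩
    exact Real.exp_pos _
  · intro h
    refine ⟨(((y.1 : C × ℝ).1, Real.log (y.1 : C × ℝ).2) : C × ℝ), ?_⟩
    apply Subtype.ext
    exact Prod.ext rfl (Real.exp_log h)

theorem isOpenEmbedding_openFun : IsOpenEmbedding (openFun w hw) := by
  have h1 : IsOpenEmbedding (fun p : C × ℝ => ((p.1, Real.exp p.2) : C × ℝ)) :=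
    IsOpenEmbedding.id.prodMap Real.isOpenEmbedding_exp
  have h2 : IsEmbedding (openFun w hw) :=
    IsEmbedding.of_comp (by
      exact (Continuous.subtype_mk h1.continuous _)) continuous_subtype_val h1.isEmbedding
  refine ⟨h2, ?_⟩
  have h3 : Set.range (openFun w hw) =
      (fun y : cylLC w hw => (y.1 : C × ℝ).2) ⁻¹' Set.Ioi 0 := by
    ext y
    exact mem_range_openFun w hw y
  rw [h3]
  exact isOpen_Ioi.preimage ((continuous_snd (X := C) (Y := ℝ)).comp continuous_subtype_val)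

theorem isCompl_low : IsCompl (Set.range (fun u : sub (isClosed_low w hw) => (u.1 : cylLC w hw)))
    (Set.range (openFun w hw)) := by
  have h1 : Set.range (fun u : sub (isClosed_low w hw) => (u.1 : cylLC w hw)) = low w hw :=
    Subtype.range_val
  have h2 : Set.range (openFun w hw) = (low w hw)ᶜ := by
    ext y
    rw [mem_range_openFun]
    exact not_le.symm
  rw [h1, h2]
  exact isCompl_compl

/-- the collapse `Y ⟶ C × (0, ∞) ≅ C × ℝ` -/
noncomputable def collapse : cylLC w hw ⟶ C ⊗ RR :=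
  ofOpen (openFun w hw) (isOpenEmbedding_openFun w hw)

/-- `Y/{l ≤ 0} ≅ C × ℝ` -/
noncomputable def cofLow : cof (subι (isClosed_low w hw)) ≅ C ⊗ RR :=
  cofClosedOpen (Z := sub (isClosed_low w hw)) (Y := cylLC w hw)
    (fun u : sub (isClosed_low w hw) => (u.1 : cylLC w hw))
    (isClosedEmbedding_subι (isClosed_low w hw)) (openFun w hw) (isOpenEmbedding_openFun w hw)
    (isCompl_low w hw)

theorem cofMap_cofLow : cofMap (subι (isClosed_low w hw)) ≫ (cofLow w hw).hom = collapse w hw :=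
  cofMap_cofClosedOpen _ _ _ _ _

theorem unitHom_collapse : unitHom w hw ≫ collapse w hw =
    Z ◁ logRR ≫ ofClosed w hw ▷ RR := by
  apply tensor_ext
  intro z l
  rw [app_comp, app_comp, app_whiskerLeft_smash, smash_coe_coe]
  by_cases hl : (0 : ℝ) < l
  · have h1 : (l : ℝ) = Real.exp (Real.log l) := (Real.exp_log hl).symm
    have h2 : app (unitHom w hw) (((z, l) : Z × ℝ) : OnePoint (Z × ℝ)) =
        ((openFun w hw ((w z, Real.log l) : C × ℝ) : cylLC w hw) : OnePoint (cylLC w hw)) := by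
      change ((unitFun w hw (z, l) : cylLC w hw) : OnePoint (cylLC w hw)) = _
      congr 1
      exact Subtype.ext (Prod.ext rfl h1)
    have h3 : app logRR ((l : ℝ) : OnePoint ℝ) = ((Real.log l : ℝ) : OnePoint ℝ) := by
      conv_lhs => rw [h1]
      exact app_ofOpen_coe (X := RR) (Y := RR) Real.exp Real.isOpenEmbedding_exp _
    rw [h2, h3, smash_coe_coe]
    exact app_ofOpen_coe (openFun w hw) (isOpenEmbedding_openFun w hw) _
  · have h3 : app logRR ((l : ℝ) : OnePoint ℝ) = ∞ := by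
      apply app_ofOpen_of_notMem (X := RR) (Y := RR) Real.exp Real.isOpenEmbedding_exp
      rw [Real.range_exp]
      exact hl
    rw [h3, smash_infty_right, app_infty]
    change app (collapse w hw) ((unitFun w hw (z, l) : cylLC w hw) : OnePoint (cylLC w hw)) = ∞
    apply app_ofOpen_of_notMem
    rw [mem_range_openFun]
    exact hl

end pair

section functor

variable {T : Type u} [Category.{v} T] [Preadditive T] [HasZeroObject T]
    [HasShift T ℤ] [∀ n : ℤ, (shiftFunctor T n).Additive] [Pretriangulated T]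
    [MonoidalCategory T] [SymmetricCategory T] [TensorTriangulated T]

variable {U : UTri T} (F : SpaceFunctor T) {C Z : FCat} (w : Z.obj → C.obj)
  (hw : IsClosedEmbedding w)

/-- `Y` as an object of `FCat` -/
abbrev cylF : FCat := ⟨cylLC w hw, fc_cylLC w hw C.property Z.property⟩

/-- the unit `Z × ℝ ⟶ Y` -/
abbrev unitF : Z ⊗ RRF ⟶ cylF w hw := FCat.hom (unitHom w hw)

/-- **The inclusion `Z × ℝ ⟶ Y` is invertible in `T`.** -/
theorem isIso_map_unit : IsIso (F.S.map (unitF w hw)) := by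
  let HHF : FCat := ⟨HH, FC.halfLine⟩
  let aZ : Z ⊗ HHF ⟶ Z ⊗ RRF := FCat.hom (Z.obj ◁ incPos)
  let a : C ⊗ HHF ⟶ cylF w hw := FCat.hom (topHom w hw)
  have haZ : Cofib aZ.hom := cofib_incPos.whiskerLeft Z.obj
  have ha : Cofib a.hom := cofib_topHom w hw
  have h1 : IsIso (F.S.map (cofMapF aZ haZ)) :=
    F.isIso_map _ (isHEquiv_cofMap haZ (contr_tensor_HH Z.obj))
  have h2 : IsIso (F.S.map (cofMapF a ha)) :=
    F.isIso_map _ (isHEquiv_cofMap ha (contr_tensor_HH C.obj))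
  let e : cofF aZ haZ ⟶ cofF a ha := FCat.hom (cofPushout (isPushout_unit w hw)).hom
  have h3 : IsIso (F.S.map e) := F.isIso_map _ (@isHEquiv_of_iso _ _ _ (Iso.isIso_hom _))
  have h4 : F.S.map (unitF w hw) ≫ F.S.map (cofMapF a ha) =
      F.S.map (cofMapF aZ haZ) ≫ F.S.map e := by
    rw [← Functor.map_comp, ← Functor.map_comp]
    congr 1
    ext1
    exact (cofMap_cofPushout (isPushout_unit w hw)).symm
  have h5 : IsIso (F.S.map (unitF w hw) ≫ F.S.map (cofMapF a ha)) := by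
    rw [h4]
    infer_instance
  exact IsIso.of_isIso_comp_right _ (F.S.map (cofMapF a ha))

theorem spl_map_whiskerRight {A B : FCat} (f : A ⟶ B) (hf : U.Spl (F.S.map f)) (X : FCat) :
    U.Spl (F.S.map (f ▷ X)) := by
  rw [Vale.Agent.P093.U.map_whiskerRight_eq]
  exact (UTri.spl_of_isIso _).comp ((hf.whiskerRight _).comp (UTri.spl_of_isIso _))

/-- **The collapse `Y ⟶ Y/{l ≤ 0}` is split if `w` is split.** -/
theorem spl_collapse (h : U.Spl (F.S.map (FCat.hom (ofClosed w hw) : Z ⟶ C)))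
    (Q : FCat) (q : cylF w hw ⟶ Q) (e : Q.obj ≅ C.obj ⊗ RR)
    (hq : q.hom ≫ e.hom = collapse w hw) : U.Spl (F.S.map q) := by
  have h1 : unitF w hw ≫ q ≫ (FCat.hom e.hom : Q ⟶ C ⊗ RRF) =
      (FCat.hom (Z.obj ◁ logRR) : Z ⊗ RRF ⟶ Z ⊗ RRF) ≫
        (FCat.hom (ofClosed w hw) : Z ⟶ C) ▷ RRF := by
    ext1
    change unitHom w hw ≫ q.hom ≫ e.hom = Z.obj ◁ logRR ≫ ofClosed w hw ▷ RR
    rw [hq, unitHom_collapse]
  have h2 : IsIso (F.S.map (FCat.hom (Z.obj ◁ logRR) : Z ⊗ RRF ⟶ Z ⊗ RRF)) := by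
    apply F.isIso_map
    exact isHEquiv_whiskerLeft isHEquiv_logRR Z.obj
  have h3 : IsIso (F.S.map (unitF w hw)) := isIso_map_unit F w hw
  have h4 : U.Spl (F.S.map (unitF w hw) ≫ F.S.map q ≫
      F.S.map (FCat.hom e.hom : Q ⟶ C ⊗ RRF)) := by
    rw [← Functor.map_comp, ← Functor.map_comp, h1, Functor.map_comp]
    exact (UTri.spl_of_isIso _).comp (spl_map_whiskerRight F _ h RRF)
  exact h4.of_iso_comp.of_comp

/-- the hypothesis of `FiltRec.null_inc` for the pair `(Y, {l ≤ 0})` -/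
theorem spl_qS (R : FiltRec (isClosed_low w hw))
    (h : U.Spl (F.S.map (FCat.hom (ofClosed w hw) : Z ⟶ C))) : U.Spl (F.S.map R.qS) :=
  spl_collapse F w hw h _ R.qS (cofLow w hw) (cofMap_cofLow w hw)

/-- `S Y` is a sphere if `S Z` is -/
theorem nonempty_iso_cylF {t : ℤ} (hZ : Nonempty (F.S.obj Z ≅ (𝟙_ T)⟦t⟧)) :
    Nonempty (F.S.obj (cylF w hw) ≅ (𝟙_ T)⟦t + 1⟧) := by
  obtain ⟨e⟩ := hZ
  have h := isIso_map_unit F w hw
  exact ⟨(asIso (F.S.map (unitF w hw))).symm ≪≫ F.suspIso Z ≪≫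
    (shiftFunctor T (1 : ℤ)).mapIso e ≪≫ ((shiftFunctorAdd' T t 1 (t + 1) rfl).app (𝟙_ T)).symm⟩

/-- `S Y` is a sphere for an embedding of a sphere -/
theorem nonempty_iso_Yo {n : ℕ} (w : (SphF n).obj → C.obj) (hw : IsClosedEmbedding w)
    (R : FiltRec (isClosed_low w hw)) : Nonempty (F.S.obj R.Yo ≅ (𝟙_ T)⟦(n : ℤ) + 1⟧) :=
  nonempty_iso_cylF (Z := SphF n) F w hw ⟨M.sphIso F n⟩

end functor

end Vale.Agent.P093.N4
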