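import Vale.Agent.P093.U.ExtractLR

/-!
# P093, part N (Step 4): from vanishing maps in `T` to `LR`
-/

open OnePoint Set Topology
open Vale.Agent.P251.St (Space Map Rn)

namespace Vale.Agent.P093.N4

open Vale.Agent.P093.U

/-- If for every `ρ > 0` one of the inclusions `F_s^M ⟶ Y^M` with `s ≤ ρ M` vanishes in `T`, then
`LR` holds. -/
theorem lr_of_map_zero {T : Vale.Agent.P251.St.SHCat} (F : Vale.Agent.P251.St.Susp T) {t : ℕ}
    (C : Space) (u : (Fin t → ℝ) → C.carrier) (hu : IsClosedEmbedding u)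
    (hi : ∀ M s, Vale.Agent.P251.St.Cofib (cylFilMap C u hu M s))
    (hA : ∀ M s, Vale.Agent.P251.St.FC (cylFil C u hu M s))
    (hY : ∀ M, Vale.Agent.P251.St.FC (cylPow C u hu M))
    (hι : ∀ M, CategoryTheory.IsIso (F.map (cylUnitR C u hu M)))
    (h : ∀ ρ : ℝ, 0 < ρ → ∃ M s : ℕ, 0 < M ∧ (s : ℝ) ≤ ρ * M ∧
      F.map (cylFilMap C u hu M s) = 0) : LR C u := by
  intro ρ hρ
  obtain ⟨M, s, hM, hs, h0⟩ := h ρ hρ
  obtain ⟨n, hn⟩ := lrat_of_map_zero C u F hu M s (hi M s) (hA M s) (hY M) (hι M) h0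
  exact ⟨M, s, n, hM, hs, hn⟩

end Vale.Agent.P093.N4
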