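import Vale.Agent.P093.N.VL2
import Mathlib.Tactic

/-!
# P093, part N (Step 4): from vanishing lines at every prime to the vanishing of long composites

* `AF_shiftZ` : Adams filtration is invariant under all shifts
* `cop p` : the integers prime to `p`; `eq_zero_of_tors` : a map which is `cop p`-torsion for all
  primes `p` is zero
* `AVL U D b` : composites `K ⟶ 𝟙` of many `E`-null maps vanish, with slope `b`
* `AVL.of` : from vanishing lines for `𝟙` at all primes, and a common one for large primes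
* `AVL.eq_zero` : vanishing of composites `K ⟶ 𝟙⟦m⟧`
* `lr_core` : the numerical conclusion.
-/

open CategoryTheory MonoidalCategory Limits Pretriangulated

set_option linter.unusedSectionVars false

universe v u

namespace Vale.Agent.P093.N.LR

open Vale.Agent.P251.T Vale.Agent.P251.S Vale.Agent.P093.N.TT

variable {T : Type u} [Category.{v} T] [Preadditive T] [HasZeroObject T]
    [HasShift T ℤ] [∀ n : ℤ, (shiftFunctor T n).Additive] [Pretriangulated T]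
    [MonoidalCategory T] [SymmetricCategory T] [TensorTriangulated T]

variable {U : UTri T}

/-! ### general shifts -/

lemma AF_natIso {k : ℕ} {F G : T ⥤ T} (e : F ≅ G) {X Y : T} (f : X ⟶ Y)
    (h : U.AF k (F.map f)) : U.AF k (G.map f) := by
  have h1 : G.map f = e.inv.app X ≫ F.map f ≫ e.hom.app Y := by simp
  rw [h1]
  exact (h.comp_right _).comp_left _

lemma AF_shiftZ_nat {k : ℕ} (m : ℕ) {X Y : T} {f : X ⟶ Y} (h : U.AF k f) :
    U.AF k (f⟦(m : ℤ)⟧') := by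
  induction m with
  | zero => exact AF_natIso (F := 𝟭 T) (shiftFunctorZero T ℤ).symm f h
  | succ m ih =>
    have h1 : U.AF k ((shiftFunctor T (m : ℤ) ⋙ shiftFunctor T (1 : ℤ)).map f) :=
      UTri.AF_shift_iff.2 ih
    exact AF_natIso (shiftFunctorAdd T (m : ℤ) 1).symm f h1

lemma AF_shiftZ_neg {k : ℕ} (m : ℕ) {X Y : T} {f : X ⟶ Y} (h : U.AF k f) :
    U.AF k (f⟦-(m : ℤ)⟧') := by
  induction m with
  | zero =>
    exact AF_natIso (F := 𝟭 T) ((shiftFunctorZero' T (-((0 : ℕ) : ℤ)) (by simp)).symm) f h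
  | succ m ih =>
    rw [← UTri.AF_shift_iff]
    have h1 : (shiftFunctor T (-(m : ℤ))) ≅
        (shiftFunctor T (-((m + 1 : ℕ) : ℤ)) ⋙ shiftFunctor T (1 : ℤ)) :=
      shiftFunctorAdd' T (-((m + 1 : ℕ) : ℤ)) 1 (-(m : ℤ)) (by push_cast; ring)
    exact AF_natIso h1 f ih

lemma AF_shiftZ {k : ℕ} (m : ℤ) {X Y : T} {f : X ⟶ Y} (h : U.AF k f) : U.AF k (f⟦m⟧') := by
  obtain ⟨n, rfl | rfl⟩ := m.eq_nat_or_neg
  · exact AF_shiftZ_nat n h
  · exact AF_shiftZ_neg n h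

/-! ### from all primes to the integers -/

/-- the integers prime to `p` -/
def cop (p : ℕ) : Submonoid ℤ where
  carrier := {N | IsCoprime N (p : ℤ)}
  mul_mem' := fun ha hb => IsCoprime.mul_left ha hb
  one_mem' := isCoprime_one_left

lemma mem_cop {p : ℕ} {N : ℤ} : N ∈ cop p ↔ IsCoprime N (p : ℤ) := Iff.rfl

lemma mem_cop_of_not_dvd {p : ℕ} (hp : p.Prime) {N : ℤ} (h : ¬ (p : ℤ) ∣ N) : N ∈ cop p := by
  rw [mem_cop]
  exact ((Int.prime_iff_natAbs_prime.2 (by simpa using hp)).coprime_iff_not_dvd.2 h).symm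

lemma not_dvd_of_mem_cop {p : ℕ} (hp : p.Prime) {N : ℤ} (h : N ∈ cop p) : ¬ (p : ℤ) ∣ N :=
  (Int.prime_iff_natAbs_prime.2 (by simpa using hp)).coprime_iff_not_dvd.1 (mem_cop.1 h).symm

/-- a map which is killed, for every prime `p`, by an integer prime to `p`, is zero -/
lemma eq_zero_of_tors {X Y : T} {g : X ⟶ Y}
    (h : ∀ p : ℕ, p.Prime → UTri.Tors (cop p) g) : g = 0 := by
  by_contra hg
  have h1 : addOrderOf g ≠ 1 := fun h1 => hg (AddMonoid.addOrderOf_eq_one_iff.1 h1)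
  obtain ⟨p, hp, hdvd⟩ := Nat.exists_prime_and_dvd h1
  obtain ⟨N, hN, h2⟩ := h p hp
  refine not_dvd_of_mem_cop hp hN ?_
  exact (Int.natCast_dvd_natCast.2 hdvd).trans (addOrderOf_dvd_iff_zsmul_eq_zero.2 h2)

/-! ### absolute vanishing lines -/

variable (U) in
/-- Composites `K ⟶ 𝟙` of many `E`-null maps vanish, with slope `b`. -/
def AVL (D : ℤ → T → Prop) (b : ℤ) : Prop :=
  ∃ (r : ℕ) (c : ℤ), ∀ (s : ℕ) (n : ℤ) (K : T), D n K → n + c < b * s →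
    ∀ g : K ⟶ 𝟙_ T, U.AF (s + r) g → g = 0

variable {D : ℤ → T → Prop}

/-- uniform vanishing lines for finitely many primes -/
lemma vls_finite {b : ℤ} (p₀ : ℕ) (h : ∀ p : ℕ, p.Prime → p < p₀ → U.VLS (cop p) D b (𝟙_ T)) :
    ∃ (r : ℕ) (c : ℤ), ∀ (s : ℕ) (n : ℤ) (K : T), D n K → n + c < b * s →
      ∀ g : K ⟶ 𝟙_ T, U.AF (s + r) g → ∀ p : ℕ, p.Prime → p < p₀ → UTri.Tors (cop p) g := by
  induction p₀ with
  | zero => exact ⟨0, 0, fun s n K _ _ g _ p _ hp => absurd hp (Nat.not_lt_zero p)⟩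
  | succ p₀ ih =>
    obtain ⟨r, c, hrc⟩ := ih fun p hp hlt => h p hp (by omega)
    by_cases hp₀ : p₀.Prime
    · obtain ⟨r', c', h'⟩ := (h p₀ hp₀ (by omega)).comp
      refine ⟨max r r', max c c', fun s n K hK hn g hg p hp hlt => ?_⟩
      have hc := le_max_left c c'
      have hc' := le_max_right c c'
      rcases Nat.lt_succ_iff_lt_or_eq.1 hlt with hlt | rfl
      · exact hrc s n K hK (by linarith) g (hg.of_le (by omega)) p hp hlt
      · have := h' s n K _ hK (by linarith) g (hg.of_le (by omega)) (𝟙 _)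
        rwa [Category.comp_id] at this
    · refine ⟨r, c, fun s n K hK hn g hg p hp hlt => ?_⟩
      rcases Nat.lt_succ_iff_lt_or_eq.1 hlt with hlt | rfl
      · exact hrc s n K hK hn g hg p hp hlt
      · exact absurd hp hp₀

/-- **Local to global**: vanishing lines for `𝟙` at all primes, with constants independent of `p`
for large `p`, give absolute vanishing lines. -/
theorem AVL.of {b : ℤ} (p₀ r₀ : ℕ) (c₀ : ℤ)
    (h : ∀ p : ℕ, p.Prime → p < p₀ → U.VLS (cop p) D b (𝟙_ T))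
    (hbig : ∀ (s : ℕ) (n : ℤ) (K : T), D n K → n + c₀ < b * s →
      ∀ g : K ⟶ 𝟙_ T, U.AF (s + r₀) g → ∀ p : ℕ, p.Prime → p₀ ≤ p → UTri.Tors (cop p) g) :
    AVL U D b := by
  obtain ⟨r, c, hrc⟩ := vls_finite (U := U) (D := D) p₀ h
  refine ⟨max r r₀, max c c₀, fun s n K hK hn g hg => eq_zero_of_tors fun p hp => ?_⟩
  have hc := le_max_left c c₀
  have hc' := le_max_right c c₀
  rcases lt_or_ge p p₀ with hlt | hge
  · exact hrc s n K hK (by linarith) g (hg.of_le (by omega)) p hp hlt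
  · exact hbig s n K hK (by linarith) g (hg.of_le (by omega)) p hp hge

/-- Composites of sufficiently many `E`-null maps `K ⟶ 𝟙⟦m⟧` vanish. -/
theorem AVL.eq_zero {b : ℤ} (h : AVL U D b)
    (hD : ∀ n W (m : ℤ), D n W → D (n + m) (W⟦m⟧)) :
    ∃ (r : ℕ) (c : ℤ), ∀ (s : ℕ) (n m : ℤ) (K Y : T), D n K → Nonempty (Y ≅ (𝟙_ T)⟦m⟧) →
      n - m + c < b * s → ∀ g : K ⟶ Y, U.AF (s + r) g → g = 0 := by
  obtain ⟨r, c, hrc⟩ := h
  refine ⟨r, c, fun s n m K Y hK hY hn g hg => ?_⟩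
  obtain ⟨e⟩ := hY
  let i : ((𝟙_ T)⟦m⟧)⟦-m⟧ ≅ 𝟙_ T := (shiftFunctorCompIsoId T m (-m) (by simp)).app (𝟙_ T)
  have h1 : (g ≫ e.hom)⟦-m⟧' ≫ i.hom = 0 :=
    hrc s (n + -m) _ (hD n K (-m) hK) (by linarith) _
      ((AF_shiftZ (-m) (hg.comp_right _)).comp_right _)
  have h2 : (g ≫ e.hom)⟦-m⟧' = 0 := by
    rw [← cancel_mono i.hom, h1, zero_comp]
  have h3 : g ≫ e.hom = 0 := by
    apply (shiftFunctor T (-m)).map_injective
    rw [h2, Functor.map_zero]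
  rw [← cancel_mono e.hom, h3, zero_comp]

/-- the numerical part of `lr_core` -/
lemma exists_MS (ρ : ℝ) (hρ : 0 < ρ) (b : ℤ) (d : ℤ) (hb : (d : ℝ) + 1 ≤ b * ρ) (hb0 : 0 ≤ b)
    (e c : ℤ) (r : ℕ) : ∃ M s : ℕ, 0 < M ∧ ((s + r : ℕ) : ℝ) ≤ ρ * M ∧
      (M : ℤ) * d + e + c < b * s := by
  obtain ⟨N₁, hN₁⟩ := exists_nat_gt ((r + 1 : ℝ) / ρ)
  obtain ⟨N₂, hN₂⟩ := exists_nat_gt ((e : ℝ) + c + b * (1 + r))
  set M := max 1 (max N₁ N₂) with hM
  have hM1 : (N₁ : ℝ) ≤ M := by exact_mod_cast (le_max_left N₁ N₂).trans (le_max_right _ _)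
  have hM2 : (N₂ : ℝ) ≤ M := by exact_mod_cast (le_max_right N₁ N₂).trans (le_max_right _ _)
  have hρM : (r + 1 : ℝ) ≤ ρ * M := by
    have : (r + 1 : ℝ) / ρ ≤ M := by linarith
    rw [div_le_iff₀ hρ] at this
    linarith
  have hfl : (⌊ρ * M⌋₊ : ℝ) ≤ ρ * M := Nat.floor_le (by positivity)
  have hfl' : ρ * M < ⌊ρ * M⌋₊ + 1 := Nat.lt_floor_add_one _
  have hr : r + 1 ≤ ⌊ρ * M⌋₊ := Nat.le_floor (by push_cast; exact hρM)
  refine ⟨M, ⌊ρ * M⌋₊ - r, lt_of_lt_of_le one_pos (le_max_left _ _), ?_, ?_⟩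
  · rw [Nat.sub_add_cancel (by omega)]
    exact hfl
  · have h1 : (((M : ℤ) * d + e + c : ℤ) : ℝ) < ((b * ((⌊ρ * M⌋₊ - r : ℕ) : ℤ) : ℤ) : ℝ) := by
      rw [Nat.cast_sub (by omega)]
      push_cast
      have hbR : (0 : ℝ) ≤ b := by exact_mod_cast hb0
      have h2 : (b : ℝ) * (ρ * M - 1 - r) ≤ b * (⌊ρ * M⌋₊ - r) := by
        apply mul_le_mul_of_nonneg_left _ hbR
        linarith
      have h3 : ((d : ℝ) + 1) * M ≤ b * ρ * M :=
        mul_le_mul_of_nonneg_right hb (Nat.cast_nonneg M)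
      nlinarith
    exact_mod_cast h1

/-- **The core of (LR).** Absolute vanishing lines of all slopes kill, for every `ρ > 0`, one of the
composites `K M s ⟶ Y M` with `s ≤ ρ M`, when `K M s ⟶ Y M` is a composite of `s` `E`-null maps,
`K M s` has dimension at most `M d + e` and `Y M` is a sphere of dimension `M t`. -/
theorem lr_core (hU : ∀ b : ℕ, AVL U D b)
    (hD : ∀ n W (m : ℤ), D n W → D (n + m) (W⟦m⟧))
    (d e t : ℤ) (K : ℕ → ℕ → T) (Y : ℕ → T) (f : ∀ M s, K M s ⟶ Y M)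
    (hK : ∀ M s : ℕ, s ≤ M → D ((M : ℤ) * d + e) (K M s))
    (hY : ∀ M : ℕ, Nonempty (Y M ≅ (𝟙_ T)⟦(M : ℤ) * t⟧))
    (hf : ∀ M s : ℕ, s ≤ M → U.AF s (f M s)) (ρ : ℝ) (hρ : 0 < ρ) :
    ∃ M s : ℕ, 0 < M ∧ (s : ℝ) ≤ ρ * M ∧ s ≤ M ∧ f M s = 0 := by
  have hρ' : 0 < min ρ 1 := lt_min hρ one_pos
  obtain ⟨b₀, hb₀⟩ := exists_nat_gt (((d - t : ℤ) + 1 : ℝ) / min ρ 1)
  obtain ⟨r, c, h⟩ := (hU b₀).eq_zero hD
  have hb : (((d - t : ℤ)) : ℝ) + 1 ≤ (b₀ : ℤ) * min ρ 1 := by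
    rw [div_lt_iff₀ hρ'] at hb₀
    push_cast at hb₀ ⊢
    linarith
  obtain ⟨M, s, hM, hs, hlt⟩ := exists_MS (min ρ 1) hρ' b₀ (d - t) hb (by positivity) e c r
  have hMR : (0 : ℝ) ≤ M := Nat.cast_nonneg M
  have hsM : s + r ≤ M := by
    have h1 : ((s + r : ℕ) : ℝ) ≤ M :=
      hs.trans ((mul_le_mul_of_nonneg_right (min_le_right _ _) hMR).trans (by linarith))
    exact_mod_cast h1
  refine ⟨M, s + r, hM, hs.trans (mul_le_mul_of_nonneg_right (min_le_left _ _) hMR), hsM, ?_⟩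
  exact h s (M * d + e) (M * t) _ _ (hK M _ hsM) (hY M) (by linarith) _ (hf M _ hsM)

end Vale.Agent.P093.N.LR
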