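import Vale.Agent.P093.N4.Steps
import Vale.Agent.P093.N4.LRCore
import Vale.Agent.P093.L192.Rec

/-!
# P093, part N (Step 4): the filtration of `Y^M` and absolute vanishing lines

`Y` a finite cell space whose suspension spectrum is a sphere, `S` a closed subset such that the
collapse `Y ⟶ Y/S` is `E`-split. If all absolute vanishing lines hold, then for every `ρ > 0` one of
the inclusions `F_s^M ⟶ Y^M` with `s ≤ ρ M` is zero in the stable category.
-/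

open CategoryTheory MonoidalCategory Limits Pretriangulated Topology

set_option linter.unusedSectionVars false

universe v u

namespace Vale.Agent.P093.N4

open Vale.Agent.P251 Vale.Agent.P251.G Vale.Agent.P251.G.LC Vale.Agent.P251.I
  Vale.Agent.P251.T Vale.Agent.P093.N.TT Vale.Agent.P093.N.LR Vale.Agent.P093.L192

variable {T : Type u} [Category.{v} T] [Preadditive T] [HasZeroObject T]
    [HasShift T ℤ] [∀ n : ℤ, (shiftFunctor T n).Additive] [Pretriangulated T]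
    [MonoidalCategory T] [SymmetricCategory T] [TensorTriangulated T]

variable {Y : LC} {S : Set Y} {hS : IsClosed S} (R : FiltRec hS) {U : UTri T} (F : SpaceFunctor T)

namespace FiltRec

/-- the power `Y^M` is a sphere if `Y` is -/
theorem nonempty_iso_Xo (t : ℤ) (hY : Nonempty (F.S.obj R.Yo ≅ (𝟙_ T)⟦t⟧)) (M : ℕ) :
    Nonempty (F.S.obj (R.Xo M 0) ≅ (𝟙_ T)⟦(M : ℤ) * t⟧) := by
  obtain ⟨eY⟩ := hY
  induction M with
  | zero =>
    have e : R.Xo 0 0 ≅ 𝟙_ FCat := Vale.Agent.P251.M.fcIso (XXtop hS 0)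
    refine ⟨F.S.mapIso e ≪≫ (Functor.Monoidal.εIso F.S).symm ≪≫ ?_⟩
    exact ((shiftFunctorZero' T (((0 : ℕ) : ℤ) * t) (by simp)).app (𝟙_ T)).symm
  | succ M ih =>
    obtain ⟨eM⟩ := ih
    have e : R.Xo M 0 ⊗ R.Yo ≅ R.Xo (M + 1) 0 :=
      Vale.Agent.P251.M.fcIso (whiskerRightIso (XXtop hS M) Y ≪≫ (XXtop hS (M + 1)).symm)
    refine ⟨F.S.mapIso e.symm ≪≫ (Functor.Monoidal.μIso F.S _ _).symm ≪≫
      (eM ⊗ᵢ eY) ≪≫ Vale.Agent.P251.M.tensorUnitShiftIso _ t ≪≫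
      ((shiftFunctorAdd' T ((M : ℤ) * t) t (((M + 1 : ℕ) : ℤ) * t) (by push_cast; ring)).app
        (𝟙_ T)).symm⟩

/-- **Step 4.** One of the inclusions `F_s^M ⟶ Y^M` with `s ≤ ρ M` is zero. -/
theorem exists_inc₀_eq_zero (hU : ∀ b : ℕ, AVL U (DimLE (T := T)) b)
    (hq : U.Spl (F.S.map R.qS)) (t : ℤ) (hY : Nonempty (F.S.obj R.Yo ≅ (𝟙_ T)⟦t⟧))
    (ρ : ℝ) (hρ : 0 < ρ) :
    ∃ M s : ℕ, 0 < M ∧ (s : ℝ) ≤ ρ * M ∧ s ≤ M ∧ F.S.map (R.inc₀ M s) = 0 := by
  obtain ⟨d, hd⟩ := R.exists_dimLE_Xo F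
  exact lr_core hU (fun n W m h => h.shift m) d 0 t (fun M s => F.S.obj (R.Xo M s))
    (fun M => F.S.obj (R.Xo M 0)) (fun M s => F.S.map (R.inc₀ M s))
    (fun M s _ => by rw [add_zero]; exact hd M s) (R.nonempty_iso_Xo F t hY)
    (fun M s _ => R.AF_inc₀ F hq M s) ρ hρ

end FiltRec

end Vale.Agent.P093.N4
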