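import Vale.Agent.P093.N4.BigStart
import Vale.Agent.P093.N.FinalVl
import Vale.Agent.P093.N.HopfGr
import Vale.Agent.P251.M.QOut

/-!
# P093, part N: the large primes

`towObj_Sp` : `S_(p)` is in the class of Step 1 for `Pn p 0 = 𝔽_p`, bottom `0`.
-/

open CategoryTheory MonoidalCategory MonObj Limits Pretriangulated TensorProduct

set_option linter.unusedSectionVars false

universe v u

noncomputable section

namespace Vale.Agent.P093.N4.Big

open Vale.Agent.P093.N

section Inj

open Vale.Agent.P093.N.Co Coalgebra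

variable {k A M : Type*} [CommSemiring k] [AddCommMonoid A] [Module k A]
  [Coalgebra k A] [AddCommMonoid M] [Module k M]

/-- Every comodule over the coalgebra `k` is injective. -/
theorem inj_of_counit (u : k →ₗ[k] A) (hu : ∀ a : A, u (counit a) = a) {ρ : M →ₗ[k] A ⊗[k] M}
    (h : IsCoact ρ) : Inj ρ := by
  let r : A ⊗[k] M →ₗ[k] M := (TensorProduct.lid k M).toLinearMap ∘ₗ (counit (R := k)).rTensor M
  let s : M →ₗ[k] A ⊗[k] M := u.rTensor M ∘ₗ (TensorProduct.lid k M).symm.toLinearMap
  have hr : ∀ m, r (ρ m) = m := fun m => LinearMap.congr_fun h.counital m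
  have hs : ∀ x, s (r x) = x := by
    intro x
    simp only [s, r, LinearMap.comp_apply, LinearEquiv.coe_coe, LinearEquiv.symm_apply_apply]
    rw [← LinearMap.comp_apply, ← LinearMap.rTensor_comp]
    have h1 : u ∘ₗ (counit (R := k) : A →ₗ[k] k) = LinearMap.id := LinearMap.ext hu
    rw [h1, LinearMap.rTensor_id, LinearMap.id_apply]
  have hρ : ∀ m, ρ m = s m := fun m => by
    conv_rhs => rw [← hr m, hs]
  refine ⟨r, ?_, LinearMap.ext hr⟩
  refine LinearMap.ext fun x => ?_
  have hx : ρ (r x) = x := by rw [hρ, hs]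
  rw [LinearMap.comp_apply, hx, LinearMap.comp_apply]
  conv_rhs => rw [← hx]
  have h2 : cof k A M (ρ (r x)) = ρ.lTensor A (ρ (r x)) := h.coassoc_apply (r x)
  rw [h2, ← LinearMap.comp_apply, ← LinearMap.lTensor_comp]
  have h3 : r ∘ₗ ρ = LinearMap.id := LinearMap.ext hr
  rw [h3, LinearMap.lTensor_id, LinearMap.id_apply, hx]

end Inj

section Pn

variable {p : ℕ} [hp : Fact p.Prime]

theorem topDeg_zero : Pn.topDeg p 0 = 0 := by
  rw [Pn.topDeg_eq, Finset.range_zero, Finset.sum_empty]

/-- `Pn p 0 = 𝔽_p` -/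
theorem algebraMap_counit (a : Pn p 0) :
    Algebra.linearMap (ZMod p) (Pn p 0) (Coalgebra.counit (R := ZMod p) a) = a := by
  have h1 : a ∈ ⨆ d, Pn.gr p 0 d := by
    rw [(Pn.grConn p 0).exh]
    trivial
  induction h1 using Submodule.iSup_induction' with
  | mem d x hx =>
    by_cases hd : d = 0
    · subst hd
      exact ((Pn.grConn p 0).zero x hx).symm
    · have h2 : x = 0 := by
        have h3 := Pn.gr_eq_bot (p := p) (m := 0) (d := d) (by
          rw [topDeg_zero]
          exact Nat.pos_of_ne_zero hd)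
        rw [h3] at hx
        exact (Submodule.mem_bot _).1 hx
      rw [h2, map_zero, map_zero]
  | zero => rw [map_zero, map_zero]
  | add x y _ _ hx hy => rw [map_add, map_add, hx, hy]

end Pn

section Tow

open Vale.Agent.P251.T Vale.Agent.P251.S Vale.Agent.P251.M Vale.Agent.P251.I
open Vale.Agent.P093.N1 Vale.Agent.P093.Nak Vale.Agent.P093.N.PhiT Vale.Agent.P093.N.Fin
open Vale.Agent.P093.PLoc (Sp eta etaR IsPLocal)

variable {T : Type u} [Category.{v} T] [Preadditive T] [HasZeroObject T]
    [HasShift T ℤ] [∀ n : ℤ, (shiftFunctor T n).Additive] [Pretriangulated T] [IsTriangulated T]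
    [MonoidalCategory T] [SymmetricCategory T] [TensorTriangulated T] [MonoidalClosed T]
    [HasCoproducts.{0} T] [HasProducts.{0} T] [StableCat T]

variable {D : MUData T} {p : ℕ} [hp : Fact p.Prime]

/-- **The `p`-local sphere is in the class of Step 1 for `Pn p 0 = 𝔽_p`.** -/
theorem towObj_Sp (h : IsMULoc D (toRp D p) p) : TowObj h 0 0 (Sp T p) where
  loc := PLoc.isPLocal_Sp hp.out.ne_one
  conn := ⟨0, conn_Sp D p⟩
  basis := ⟨Unit, rbasisSp D p, finType_rbasisSp D p, fun j => le_rfl⟩
  inj := inj_of_counit (Algebra.linearMap (ZMod p) (Pn p 0)) algebraMap_counit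
    ((coDatPn h 0).isCoact_psi Vale.Agent.P251.M.isSphere_std ⟨Unit, ⟨rbasisSp D p⟩⟩)

end Tow

end Vale.Agent.P093.N4.Big
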