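import Vale.Agent.P093.N1.EBase
import Vale.Agent.P093.N1.Tower
import Vale.Agent.P093.N.Hur
import Vale.Agent.P093.N.HKun
import Vale.Agent.P093.N.VL3

/-!
# P093, part N: the start of the tower at the large primes

* `rbasisSp` : the `R'`-basis of `S_(p)`, `R' = MU ⊗ S_(p)`; `finType_rbasisSp`, `conn_Sp`
* `vlrc_of_step` : the vanishing line with the constants `r = 1`, `c = 0`
-/

open CategoryTheory MonoidalCategory MonObj Limits Pretriangulated

set_option linter.unusedSectionVars false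

universe v u

noncomputable section

namespace Vale.Agent.P093.N4.Big

open Vale.Agent.P251.S Vale.Agent.P251.T Vale.Agent.P251.M Vale.Agent.P251.M.EvenSpheres
  Vale.Agent.P251.X Vale.Agent.P093.Nak Vale.Agent.P251.I Vale.Agent.P251.F
  Vale.Agent.P093.PLoc Vale.Agent.P093.N1

variable {T : Type u} [Category.{v} T] [Preadditive T] [HasZeroObject T]
    [HasShift T ℤ] [∀ n : ℤ, (shiftFunctor T n).Additive] [Pretriangulated T] [IsTriangulated T]
    [MonoidalCategory T] [SymmetricCategory T] [TensorTriangulated T] [MonoidalClosed T]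
    [HasCoproducts.{0} T] [HasProducts.{0} T] [StableCat T]

section start

variable (D : MUData T) (p : ℕ)

include D in
/-- `π_k S_(p) = 0` for `k < 0` -/
theorem conn_Sp : Conn 0 (Sp T p) :=
  (Nak.bigCell_Sp p).conn D.conn_unit fun Y k f => StableCat.compact k Y f

variable [hp : Fact p.Prime]

theorem isIso_Rp_eta : IsIso (Rp D p ◁ eta T p) := by
  have h1 : IsIso (etaR p (Rp D p)) :=
    (isPLocal_iff_isIso_etaR hp.out.ne_one).1 (isPLocal_Rp p)
  have h2 : (ρ_ (Rp D p)).hom ≫ etaR p (Rp D p) = Rp D p ◁ eta T p := by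
    unfold etaR
    rw [Iso.hom_inv_id_assoc]
  rw [← h2]
  infer_instance

/-- the `R'`-basis of `S_(p)` -/
def rbasisSp : RBasis (stdEven T) (Rp D p) (Sp T p) Unit :=
  ofWhisker (eta T p) (isIso_Rp_eta D p) (RBasis.unit (stdEven T) (Rp D p))

@[simp] theorem rbasisSp_k (j : Unit) : (rbasisSp D p).k j = 0 := rfl

theorem finType_rbasisSp : (rbasisSp D p).FinType := by
  rw [finType_iff]
  exact FT.of_finite _

end start

/-! ### Vanishing lines -/

section vl

open Vale.Agent.P093.N.TT Vale.Agent.P093.N.TT.UTri Vale.Agent.P093.N.LR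

variable {U : UTri T} {G : ℤ → T → Prop} {d b : ℤ}

/-- the vanishing line with the constants `r = 1`, `c = 0` -/
theorem vlrc_of_null {X : T} (hb : b ≤ d - 1) (hd : 1 ≤ d)
    (h : ∀ (s : ℕ) (n : ℤ) (W : T), DimLE n W → n < (d - 1) * (s + 1) → ∀ g : W ⟶ U.Q s X,
      U.Null g → g = 0) : U.VLrc DimLE b 1 0 X := by
  intro s n W hW hn g hg
  refine h s n W hW ?_ g (AF_one_iff.1 hg)
  have h1 : b * (s : ℤ) ≤ (d - 1) * (s : ℤ) := mul_le_mul_of_nonneg_right hb (Int.natCast_nonneg s)
  have h2 : (0 : ℤ) ≤ d - 1 := by omega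
  have h3 : (d - 1) * ((s : ℤ) + 1) = (d - 1) * (s : ℤ) + (d - 1) := by ring
  rw [h3]
  omega

/-- the vanishing line with the constants `r = 1`, `c = 0`, from a resolution step -/
theorem vlrc_of_step (hb : b ≤ d - 1) (hd : 1 ≤ d)
    (hiso : ∀ (B : ℤ) {X Y : T}, (X ≅ Y) → G B X → G B Y)
    (hstep : ∀ (B : ℤ) (X : T), G B X → HasStep U (G (B + d)) X)
    (hhur : ∀ (B : ℤ) (X : T), G B X → ∀ n W, DimLE n W → n < B → ∀ f : W ⟶ X, f = 0)
    {X : T} (hX : G 0 X) : U.VLrc DimLE b 1 0 X :=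
  vlrc_of_null hb hd fun s n W hW hn g hg =>
    null_eq_zero (D := DimLE) (fun n W hW => hW.shift 1) hiso hstep hhur hX s n W hW
      (by linarith) g hg

end vl

end Vale.Agent.P093.N4.Big
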