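import Vale.Agent.P093.N4.GoodTh
import Vale.Agent.P093.N4.Base
import Vale.Agent.P093.N4.LRSpace
import Vale.Agent.P093.L192.CylUnit

/-!
# P093, part N (Step 4): `LR` for the good unital spaces

`lr_of_avl` : if all absolute vanishing lines hold in a stable homotopy category with a suspension
spectrum functor, and the fibre inclusions of the Grassmannian Thom spaces are `E`-split, then
`LR C w` for all good `(C, w)`.
-/

open CategoryTheory MonoidalCategory Limits Pretriangulated Topology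

namespace Vale.Agent.P093.N4

open Vale.Agent.P251 Vale.Agent.P251.G Vale.Agent.P251.G.LC Vale.Agent.P251.I
  Vale.Agent.P251.T Vale.Agent.P093.N.TT Vale.Agent.P093.N.LR Vale.Agent.P093.L192
open Vale.Agent.P251.St (Space toLC SHCat Susp)
open Vale.Agent.P093.Final

/-- the pair `(Y, {l ≤ 0})` has all properties of `FiltRec` -/
theorem filtRec_low' {C Z : LC} (w : Z → C) (hw : IsClosedEmbedding w) (hC : FC C) (hZ : FC Z) :
    FiltRec (isClosed_low w hw) := ⟨pp_cy hw, fc_cyY hw hZ hC, fc_cyZ hw hZ hC⟩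

theorem exists_inc₀ {T : SHCat} (S : Susp T) {U : UTri T.C}
    (hU : ∀ b : ℕ, AVL U (DimLE (T := T.C)) b) (hT : ThSpl S.toSpaceFunctor U) {t : ℕ} (C : Space)
    (w : (Fin t → ℝ) → C.carrier) (h : ThGood C w) (hw : IsClosedEmbedding w)
    (R : FiltRec (isClosed_low (C := toLC C) (Z := Sph t) w hw))
    (ρ : ℝ) (hρ : 0 < ρ) :
    ∃ M s : ℕ, 0 < M ∧ (s : ℝ) ≤ ρ * M ∧ s ≤ M ∧ S.toSpaceFunctor.S.map (R.inc₀ M s) = 0 := by
  have hC : LC.FC (toLC C) := fcL_of_thGood h
  exact R.exists_inc₀_eq_zero S.toSpaceFunctor hU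
    (spl_qS (C := ⟨toLC C, hC⟩) (Z := SphF t) S.toSpaceFunctor w hw R
      (spl_of_thGood hT h hw hC)) ((t : ℤ) + 1)
    (nonempty_iso_Yo (C := ⟨toLC C, hC⟩) S.toSpaceFunctor w hw R) ρ hρ

end Vale.Agent.P093.N4
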