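import Vale.Agent.P093.N4.Base
import Vale.Agent.P093.L192.CylUnit

/-!
# P093, block N4-F: `FiltRec` for the pair `(Y, {l ≤ 0})`
-/

open CategoryTheory MonoidalCategory Limits Pretriangulated Topology

namespace Vale.Agent.P093.N4

open Vale.Agent.P251 Vale.Agent.P251.G Vale.Agent.P251.G.LC Vale.Agent.P093.L192

variable {C Z : LC} (w : Z → C) (hw : IsClosedEmbedding w)

/-- The hypotheses on the pair `(Y, {l ≤ 0})`. -/
theorem filtRec_low (hC : FC C) (hZ : FC Z) : FiltRec (isClosed_low w hw) :=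
  ⟨pp_cy hw, fc_cylLC w hw hC hZ, fc_cyZ hw hZ hC⟩

end Vale.Agent.P093.N4
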