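import Vale.Agent.P093.N4.Null
import Vale.Agent.P093.N4.Dim
import Vale.Agent.P093.L192.Rec
import Vale.Agent.P251.I.CofTriangle
import Vale.Agent.P251.M.SpaceConn

/-!
# P093, block N4-F: the null steps of the filtration `F_s^M` and its dimension

`F` is a suspension spectrum functor, `Y` a finite cell space, `S` a closed subset such that
`Y ⟶ Y/S` is `E`-split in `T`. Then all inclusions `F_{s+1}^M ⟶ F_s^M` are `E`-null, so that
`F_s^M ⟶ Y^M` is a composite of `s` null maps (`AF_XXι`), and the dimension of `F_s^M` is at most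
linear in `M` (`dimLE_XX`).
-/

open CategoryTheory MonoidalCategory Limits Pretriangulated Topology

set_option linter.unusedSectionVars false

universe v u

namespace Vale.Agent.P093.N4

open Vale.Agent.P251 Vale.Agent.P251.G Vale.Agent.P251.G.LC Vale.Agent.P251.I
  Vale.Agent.P251.T Vale.Agent.P093.N.TT Vale.Agent.P093.N.LR Vale.Agent.P093.L192

variable {T : Type u} [Category.{v} T] [Preadditive T] [HasZeroObject T]
    [HasShift T ℤ] [∀ n : ℤ, (shiftFunctor T n).Additive] [Pretriangulated T]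
    [MonoidalCategory T] [SymmetricCategory T] [TensorTriangulated T]

section general

variable {U : UTri T} (F : SpaceFunctor T)

/-- the map of suspension spectra is null iff the collapse is split -/
theorem spl_cofMapF {A B : FCat} (i : A ⟶ B) (hi : Cofib i.hom) (h : U.Null (F.S.map i)) :
    U.Spl (F.S.map (cofMapF i hi)) :=
  UTri.Null.spl (F.cof_distinguished i hi) h

theorem null_of_spl_cofMapF {A B : FCat} (i : A ⟶ B) (hi : Cofib i.hom)
    (h : U.Spl (F.S.map (cofMapF i hi))) : U.Null (F.S.map i) :=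
  h.null_of_dist (F.cof_distinguished i hi)

/-- **The null step for products of spaces.** -/
theorem null_of_tensorF {A' A Q Y P : FCat} (i : A' ⟶ A ⊗ Y) (q : A ⟶ Q) (p : Y ⟶ P)
    (hq : U.Spl (F.S.map q)) (hp : U.Spl (F.S.map p)) (h : i.hom ≫ (q.hom ⊗ₘ p.hom) = 0) :
    U.Null (F.S.map i) := by
  have h1 : F.S.map i = (F.S.map i ≫ (Functor.Monoidal.μIso F.S A Y).inv) ≫
      (Functor.Monoidal.μIso F.S A Y).hom := by
    rw [Category.assoc, Iso.inv_hom_id, Category.comp_id]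
  rw [h1]
  refine UTri.Null.comp_right (UTri.null_of_tensor hq hp ?_) _
  have h2 : (Functor.Monoidal.μIso F.S A Y).inv ≫ (F.S.map q ⊗ₘ F.S.map p) =
      F.S.map (q ⊗ₘ p) ≫ (Functor.Monoidal.μIso F.S Q P).inv := by
    rw [Iso.inv_comp_eq, ← Category.assoc, Iso.eq_comp_inv]
    exact Functor.LaxMonoidal.μ_natural F.S q p
  rw [Category.assoc, h2, ← Category.assoc, ← Functor.map_comp,
    F.map_zero (i ≫ (q ⊗ₘ p)) h, zero_comp]

/-- suspension spectra of finite cell spaces are finite complexes -/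
theorem exists_dimLE {X : LC} (hX : LC.FC X) : ∃ n : ℤ, ∀ (hX' : LC.FC X),
    DimLE n (F.S.obj ⟨X, hX'⟩) := by
  induction hX with
  | empty => exact ⟨0, fun h => .zero (F.isZero (inferInstanceAs (IsEmpty Empty)))⟩
  | sph n => exact ⟨n, fun h => (DimLE.sphere (n : ℤ) le_rfl).of_iso (M.sphIso F n).symm⟩
  | hequiv h e ih =>
    obtain ⟨n, hn⟩ := ih
    refine ⟨n, fun h' => ?_⟩
    obtain ⟨f, g, h1, h2⟩ := e
    have := F.isIso_map (FCat.hom f : (⟨_, h⟩ : FCat) ⟶ ⟨_, h'⟩) ⟨g, h1, h2⟩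
    exact (hn h).of_iso (asIso (F.S.map (FCat.hom f : (⟨_, h⟩ : FCat) ⟶ ⟨_, h'⟩)))
  | @ext A B i hi hA hC ihA ihC =>
    obtain ⟨m, hm⟩ := ihA
    obtain ⟨n, hn⟩ := ihC
    refine ⟨max m n, fun h' => ?_⟩
    exact DimLE.ext _ (F.cof_distinguished (FCat.hom i : (⟨A, hA⟩ : FCat) ⟶ ⟨B, h'⟩) hi)
      ((hm hA).mono (le_max_left _ _)) ((hn _).mono (le_max_right _ _))

/-- the dimension of the strict cofibre -/
theorem dimLE_cof {A B : FCat} (i : A ⟶ B) (hi : Cofib i.hom) {n : ℤ}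
    (hA : DimLE n (F.S.obj A)) (hB : DimLE n (F.S.obj B)) :
    DimLE (n + 1) (F.S.obj (cofF i hi)) :=
  DimLE.ext₃ _ (F.cof_distinguished i hi) (by rw [add_sub_cancel_right]; exact hA)
    (hB.mono (by omega))

theorem dimLE_tensor {A B : FCat} {m n : ℤ} (hA : DimLE m (F.S.obj A))
    (hB : DimLE n (F.S.obj B)) (p : ℤ) (h : m + n = p) : DimLE p (F.S.obj (A ⊗ B)) :=
  (hA.tensor hB p h).of_iso (Functor.Monoidal.μIso F.S A B)

end general

/-! ### the filtration -/

section filtration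

variable {Y : LC} {S : Set Y} (hS : IsClosed S)

theorem isEmpty_XX (s : ℕ) : IsEmpty (XX hS 0 (s + 1)) := ⟨fun x => Nat.succ_ne_zero s x.2⟩

/-- `F_0^M` is the whole power -/
noncomputable def XXtop (M : ℕ) : XX hS M 0 ≅ PW Y M :=
  subCongr (isClosed_FS hS M 0) isClosed_univ (FS_zero Y S M) ≪≫ asIso (subι isClosed_univ)

/-- The properties of the pair `(Y, S)` used in this file. -/
structure FiltRec : Prop where
  hP : PP Y S
  fY : FC Y
  fS : FC (sub hS)

namespace FiltRec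

variable {hS} (R : FiltRec hS)

include R in
theorem cS : Cofib (subι hS) := R.hP.cofib hS

include R in
theorem cX (M s : ℕ) : Cofib (XXinc hS M (Nat.le_succ s)) := cofib_XXinc hS R.hP M s

include R in
theorem fX (M s : ℕ) : FC (XX hS M s) := fc_XX hS R.hP R.fY R.fS M s

/-- `Y` as an object of `FCat` -/
abbrev Yo : FCat := ⟨Y, R.fY⟩

/-- `S` as an object of `FCat` -/
abbrev So : FCat := ⟨sub hS, R.fS⟩

/-- the inclusion of `S` in `Y` -/
abbrev iS : R.So ⟶ R.Yo := FCat.hom (subι hS)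

/-- the collapse `Y ⟶ Y/S` -/
noncomputable abbrev qS : R.Yo ⟶ cofF R.iS R.cS := cofMapF R.iS R.cS

/-- `F_s^M` as an object of `FCat` -/
abbrev Xo (M s : ℕ) : FCat := ⟨XX hS M s, R.fX M s⟩

/-- the inclusion `F_{s+1}^M ⟶ F_s^M` -/
abbrev inc (M s : ℕ) : R.Xo M (s + 1) ⟶ R.Xo M s := FCat.hom (XXinc hS M (Nat.le_succ s))

/-- the inclusion `F_s^M ⟶ F_0^M` -/
abbrev inc₀ (M s : ℕ) : R.Xo M s ⟶ R.Xo M 0 := FCat.hom (XXinc hS M (Nat.zero_le s))

variable {U : UTri T} (F : SpaceFunctor T)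

/-- **The inclusions `F_{s+1}^M ⟶ F_s^M` are null.** -/
theorem null_inc (hq : U.Spl (F.S.map R.qS)) (M s : ℕ) : U.Null (F.S.map (R.inc M s)) := by
  induction M generalizing s with
  | zero =>
    have h2 : IsZero (F.S.obj (R.Xo 0 (s + 1))) := F.isZero (isEmpty_XX hS s)
    rw [h2.eq_of_src (F.S.map (R.inc 0 s)) 0]
    exact UTri.null_zero
  | succ M ih =>
    have h1 : R.inc (M + 1) s =
        (FCat.hom (toTop hS M s) : R.Xo (M + 1) (s + 1) ⟶ R.Xo M s ⊗ R.Yo) ≫
        (FCat.hom (fromTop hS M s) : R.Xo M s ⊗ R.Yo ⟶ R.Xo (M + 1) s) := by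
      ext1
      exact (toTop_fromTop hS M s).symm
    rw [h1, Functor.map_comp]
    refine UTri.Null.comp_right ?_ _
    exact null_of_tensorF F _ (cofMapF (R.inc M s) (R.cX M s)) R.qS
      (spl_cofMapF F _ _ (ih s)) hq (toTop_collapse hS M s)

/-- **`F_s^M ⟶ Y^M` is a composite of `s` null maps.** -/
theorem AF_inc₀ (hq : U.Spl (F.S.map R.qS)) (M s : ℕ) : U.AF s (F.S.map (R.inc₀ M s)) := by
  induction s with
  | zero => trivial
  | succ s ih =>
    refine ⟨_, F.S.map (R.inc M s), F.S.map (R.inc₀ M s), R.null_inc F hq M s, ih, ?_⟩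
    rw [← Functor.map_comp]
    congr 1
    ext1
    exact XXinc_inc hS M (Nat.zero_le s) (Nat.le_succ s)

/-- **The dimension of `F_s^M`.** -/
theorem exists_dimLE_Xo : ∃ d : ℤ, ∀ M s : ℕ, DimLE ((M : ℤ) * d) (F.S.obj (R.Xo M s)) := by
  obtain ⟨m, hm⟩ := exists_dimLE F R.fY
  obtain ⟨n, hn⟩ := exists_dimLE F R.fS
  obtain ⟨d, hmd, hnd⟩ : ∃ d : ℤ, m ≤ d ∧ n ≤ d := ⟨max m n, le_max_left _ _, le_max_right _ _⟩
  have hY : DimLE d (F.S.obj R.Yo) := (hm _).mono hmd
  have hSd : DimLE d (F.S.obj R.So) := (hn _).mono hnd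
  refine ⟨d + 1, fun M => ?_⟩
  induction M with
  | zero =>
    intro s
    cases s with
    | zero =>
      have e : R.Xo 0 0 ≅ 𝟙_ FCat := Vale.Agent.P251.M.fcIso (XXtop hS 0)
      refine DimLE.of_iso ?_ (Functor.Monoidal.εIso F.S ≪≫ F.S.mapIso e.symm)
      rw [Nat.cast_zero, zero_mul]
      exact (DimLE.sphere 0 le_rfl).of_iso ((shiftFunctorZero T ℤ).app _)
    | succ s => exact .zero (F.isZero (isEmpty_XX hS s))
  | succ M ih =>
    intro s
    cases s with
    | zero =>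
      have e : R.Xo M 0 ⊗ R.Yo ≅ R.Xo (M + 1) 0 :=
        Vale.Agent.P251.M.fcIso (whiskerRightIso (XXtop hS M) Y ≪≫ (XXtop hS (M + 1)).symm)
      refine (dimLE_tensor F (ih 0) (hY.mono (by omega : d ≤ d + 1)) _ ?_).of_iso (F.S.mapIso e)
      push_cast; ring
    | succ s =>
      have hsub := FS_anti Y S M (Nat.le_succ s)
      have hp := isPushout_W (isClosed_FS hS M (s + 1)) (isClosed_FS hS M s) hS hsub
      let j : R.Xo M (s + 1) ⊗ R.Yo ⟶ R.Xo (M + 1) (s + 1) :=
        FCat.hom (frP (isClosed_FS hS M (s + 1)) (isClosed_FS hS M s) hS)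
      have hj : Cofib j.hom := cofib_frP _ _ hS hsub (R.cX M s)
      refine DimLE.ext _ (F.cof_distinguished j hj) ?_ ?_
      · exact dimLE_tensor F (ih (s + 1)) (hY.mono (by omega : d ≤ d + 1)) _ (by
          push_cast; ring)
      · have h2 : DimLE (((M + 1 : ℕ) : ℤ) * (d + 1))
            (F.S.obj (cofF (R.inc M s) (R.cX M s) ⊗ R.So)) :=
          dimLE_tensor F (dimLE_cof F _ _ (ih (s + 1)) (ih s)) hSd _ (by
            push_cast; ring)
        refine h2.of_iso (F.S.mapIso ?_)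
        exact Vale.Agent.P251.M.fcIso ((cofWhiskerRight (XXinc hS M (Nat.le_succ s))
          (sub hS)).symm ≪≫ cofPushout hp)

end FiltRec

end filtration

end Vale.Agent.P093.N4
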