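import Vale.Agent.P093.N0.MU

/-!
# P093, part N: Thom spaces are unital over `MU`

For a commutative monoid `K` with an orientation `o` of its theory, the inclusion of a fibre
`ℂ^n ⟶ Th n J` is `K`-split: the unit map of `F.S ℂ^n` factors through it (`exists_split`).

`exists_muAll_thSplit` : there is `D : MUData T` with `MUUniv e D`, `MUAll D` and this property for
`D.R`.
-/

open CategoryTheory MonoidalCategory Limits Pretriangulated MonObj OnePoint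
open Vale.Agent.P251.G Vale.Agent.P251.G.LC Vale.Agent.P251.I Vale.Agent.P251.T
open Vale.Agent.P251.F Vale.Agent.P251.S Vale.Agent.P251.M Vale.Agent.P251
open Functor.OplaxMonoidal Functor.LaxMonoidal

universe v u

set_option linter.unusedSectionVars false

noncomputable section

namespace Vale.Agent.P093.N4.TS

variable {T : Type u} [Category.{v} T] [Preadditive T] [HasZeroObject T]
    [HasShift T ℤ] [∀ n : ℤ, (shiftFunctor T n).Additive] [Pretriangulated T]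
    [MonoidalCategory T] [SymmetricCategory T] [TensorTriangulated T]

/-- the unit map `Z ⟶ K ⊗ Z` -/
def un (K : T) [MonObj K] (Z : T) : Z ⟶ K ⊗ Z := (λ_ Z).inv ≫ η[K] ▷ Z

section

variable (K : T) [MonObj K]

theorem un_natural {X Y : T} (f : X ⟶ Y) : un K X ≫ K ◁ f = f ≫ un K Y := by
  unfold un
  rw [Category.assoc, ← whisker_exchange, leftUnitor_inv_naturality_assoc]

theorem un_tensor (X Z : T) : un K X ▷ Z ≫ (α_ K X Z).hom = un K (X ⊗ Z) := by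
  unfold un
  simp

end

variable {F : SpaceFunctor T} {E : EvenSpheres T} (K : T) [MonObj K] [IsCommMonObj K]

theorem mul_un {k l q : ℤ} (hk : k + l = q) {X Y : T} (x : X ⟶ E.S k) (y : Y ⟶ E.S l) :
    (((x ≫ un K (E.S k)) ⊗ₘ (y ≫ un K (E.S l))) ≫ (RSys K E).mul (Nat.add_zero 0) hk :
      X ⊗ Y ⟶ (RSys K E).obj 0 q) = ((x ⊗ₘ y) ≫ (E.mu k l q hk).hom) ≫ un K (E.S q) := by
  have h0 : (K ◁ η[K]) ≫ μ[K] = (ρ_ K).hom := MonObj.mul_one K
  have h1 := mul_sig_aux (η[K]) (μ[K]) h0 (E.mu k l q hk).hom (un K (E.S k))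
  have h2 : ((x ≫ un K (E.S k)) ⊗ₘ (y ≫ un K (E.S l)) : X ⊗ Y ⟶ _) =
      (x ⊗ₘ y) ≫ (un K (E.S k) ⊗ₘ ((λ_ (E.S l)).inv ≫ (η[K] ▷ E.S l))) := by
    rw [tensorHom_comp_tensorHom]
    rfl
  have h3 : (((x ≫ un K (E.S k)) ⊗ₘ (y ≫ un K (E.S l))) ≫ tensorμ _ _ _ _ ≫
      (μ[K] ⊗ₘ (E.mu k l q hk).hom) : X ⊗ Y ⟶ K ⊗ E.S q) =
      ((x ⊗ₘ y) ≫ (E.mu k l q hk).hom) ≫ un K (E.S q) := by
    rw [h2, Category.assoc, h1, ← Category.assoc (un K (E.S k) ▷ E.S l), un_tensor, un_natural,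
      Category.assoc]
  exact h3

theorem isIso_map {X Y : LC} (hX : FC X) (hY : FC Y) (i : X ⟶ Y) [IsIso i] :
    IsIso (F.S.map (FCat.hom (X := ⟨X, hX⟩) (Y := ⟨Y, hY⟩) i)) := by
  have h1 : (FCat.hom (X := ⟨X, hX⟩) (Y := ⟨Y, hY⟩) i) ≫
      (FCat.hom (X := ⟨Y, hY⟩) (Y := ⟨X, hX⟩) (inv i)) = 𝟙 _ :=
    ObjectProperty.hom_ext _ (IsIso.hom_inv_id i)
  have h2 : (FCat.hom (X := ⟨Y, hY⟩) (Y := ⟨X, hX⟩) (inv i)) ≫
      (FCat.hom (X := ⟨X, hX⟩) (Y := ⟨Y, hY⟩) i) = 𝟙 _ :=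
    ObjectProperty.hom_ext _ (IsIso.inv_hom_id i)
  exact ⟨F.S.map (FCat.hom (inv i)), by rw [← F.S.map_comp, h1, F.S.map_id],
    by rw [← F.S.map_comp, h2, F.S.map_id]⟩

variable {K} {e : F.S.obj CCF ≅ E.L}

/-- The suspension class of `ℂ^N` is the unit, up to an isomorphism. -/
theorem lin_cls (o : Q.Orientation (thK e K)) (N : ℕ) :
    ∃ t : F.S.obj ⟨Q.Cpow (Fin N), fcCpow N⟩ ⟶ E.S N, IsIso t ∧
      uev (fcCpow N) (o.lin (Fin N)) =
        (RSys K E).tof _ (N : ℤ) (MSys.cls (M := RSys K E) 0 (t ≫ un K (E.S N))) := by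
  induction N with
  | zero =>
    have h1 : o.lin (Fin 0) = (thK e K).map (Q.cpowEmpty (Fin 0)).inv (thK e K).one := by
      rw [← Q.lin_empty o (I := Fin 0), Q.MultTheory.map_inv_hom]
    have h2 : uev fc_unit (thK e K).one =
        (RSys K E).tof _ ((0 : ℕ) : ℤ) (MSys.cls (M := RSys K E) 0
          (Functor.OplaxMonoidal.η F.S ≫ E.z ≫ un K (E.S 0))) := by
      change uev fc_unit (umk fc_unit ((RSys K E).tpull (Functor.OplaxMonoidal.η F.S) (RSys K E).tone)) = _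
      rw [uev_umk, MSys.tone, MSys.tpull_of]
      have h5 : (λ_ (𝟙_ T)).inv ≫ (η[K] ⊗ₘ E.z) = E.z ≫ un K (E.S 0) := by
        unfold un
        rw [tensorHom_def', ← leftUnitor_inv_naturality_assoc]
      refine congrArg (fun z : F.S.obj (𝟙_ FCat) ⟶ (RSys K E).obj 0 ((0 : ℕ) : ℤ) =>
        (RSys K E).tof (F.S.obj (𝟙_ FCat)) ((0 : ℕ) : ℤ) (MSys.cls (M := RSys K E) 0 z)) ?_
      exact congrArg (fun z => Functor.OplaxMonoidal.η F.S ≫ z) h5
    have h3 := uev_umap_cls (fcCpow 0) fc_unit (Q.cpowEmpty (Fin 0)).inv h2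
    refine ⟨F.S.map (FCat.hom (X := ⟨Q.Cpow (Fin 0), fcCpow 0⟩) (Y := 𝟙_ FCat)
      (Q.cpowEmpty (Fin 0)).inv) ≫ Functor.OplaxMonoidal.η F.S ≫ E.z, ?_, ?_⟩
    · have := isIso_map (F := F) (fcCpow 0) fc_unit (Q.cpowEmpty (Fin 0)).inv
      infer_instance
    · rw [h1]
      refine Eq.trans h3 ?_
      refine congrArg (fun z : F.S.obj ⟨Q.Cpow (Fin 0), fcCpow 0⟩ ⟶
        (RSys K E).obj 0 ((0 : ℕ) : ℤ) => (RSys K E).tof _ ((0 : ℕ) : ℤ)
          (MSys.cls (M := RSys K E) 0 z)) ?_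
      exact (Category.assoc _ _ _).symm.trans ((Category.assoc _ _ _).symm.trans
        (congrArg (fun z => z ≫ un K (E.S 0)) (Category.assoc _ _ _)))
  | succ n ih =>
    obtain ⟨l, hl', hl⟩ := ih
    have h0 : uev (fcCC) ((thK e K).sg) = (RSys K E).tof _ (1 : ℤ) (MSys.cls (M := RSys K E) 0
        ((e.hom ≫ E.oneIso.inv) ≫ un K (E.S 1))) := rfl
    have h1 := uev_cross_cls (fcCpow n) fcCC (q := ((n + 1 : ℕ) : ℤ)) (p := 0)
      (by push_cast; rfl) (Nat.add_zero 0) hl h0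
    have h2 : o.lin (Fin (n + 1)) = (thK e K).map
        ((Q.cpowIso (Q.finSumUnit n)).inv ≫ (Th.csum (Fin n) Unit).inv ≫
          (Q.Cpow (Fin n) ◁ Q.cpowUnit.hom))
        ((thK e K).cross (o.lin (Fin n)) (thK e K).sg) := by
      rw [← Q.lin_unit o, Q.MultTheory.map_comp, Q.MultTheory.map_comp, ← Q.MultTheory.cross_map_right,
        Q.MultTheory.map_hom_inv, ← Q.lin_sum, Q.MultTheory.map_inv_hom, ← Q.lin_reindex o (Q.finSumUnit n),
        Q.MultTheory.map_inv_hom]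
    have h4 : uev (fc_tensor (fcCpow n) fcCC) (ucross (RSys K E) F (o.lin (Fin n)) (thK e K).sg) =
        (RSys K E).tof (F.S.obj (⟨Q.Cpow (Fin n), fcCpow n⟩ ⊗ CCF)) ((n + 1 : ℕ) : ℤ)
          (MSys.cls (M := RSys K E) 0 (δ F.S _ _ ≫ ((l ⊗ₘ (e.hom ≫ E.oneIso.inv)) ≫
            (E.mu n 1 ((n + 1 : ℕ) : ℤ) (by push_cast; rfl)).hom) ≫
              un K (E.S ((n + 1 : ℕ) : ℤ)))) :=
      h1.trans (congrArg (fun z => (RSys K E).tof (F.S.obj (⟨Q.Cpow (Fin n), fcCpow n⟩ ⊗ CCF))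
        ((n + 1 : ℕ) : ℤ) (MSys.cls (M := RSys K E) 0 (δ F.S _ _ ≫ z)))
          (mul_un K (by push_cast; rfl) l (e.hom ≫ E.oneIso.inv)))
    have h3 := uev_umap_cls (fcCpow (n + 1)) (fc_tensor (fcCpow n) fcCC)
      ((Q.cpowIso (Q.finSumUnit n)).inv ≫ (Th.csum (Fin n) Unit).inv ≫
          (Q.Cpow (Fin n) ◁ Q.cpowUnit.hom)) h4
    refine ⟨F.S.map (FCat.hom (X := ⟨Q.Cpow (Fin (n + 1)), fcCpow (n + 1)⟩)
      (Y := ⟨Q.Cpow (Fin n), fcCpow n⟩ ⊗ CCF)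
      ((Q.cpowIso (Q.finSumUnit n)).inv ≫ (Th.csum (Fin n) Unit).inv ≫
          (Q.Cpow (Fin n) ◁ Q.cpowUnit.hom))) ≫ δ F.S _ _ ≫
        (l ⊗ₘ (e.hom ≫ E.oneIso.inv)) ≫ (E.mu n 1 ((n + 1 : ℕ) : ℤ) (by push_cast; rfl)).hom,
      ?_, ?_⟩
    · have := isIso_map (F := F) (fcCpow (n + 1)) (fc_tensor (fcCpow n) fcCC)
        ((Q.cpowIso (Q.finSumUnit n)).inv ≫ (Th.csum (Fin n) Unit).inv ≫
          (Q.Cpow (Fin n) ◁ Q.cpowUnit.hom))
      infer_instance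
    · rw [h2]
      refine Eq.trans h3 ?_
      refine congrArg (fun z : F.S.obj ⟨Q.Cpow (Fin (n + 1)), fcCpow (n + 1)⟩ ⟶
        (RSys K E).obj 0 ((n + 1 : ℕ) : ℤ) => (RSys K E).tof _ ((n + 1 : ℕ) : ℤ)
          (MSys.cls (M := RSys K E) 0 z)) ?_
      exact (Category.assoc _ _ _).symm.trans ((Category.assoc _ _ _).symm.trans
        (congrArg (fun z => z ≫ un K (E.S ((n + 1 : ℕ) : ℤ))) (Category.assoc _ _ _)))

/-- **The inclusion of a fibre of a Thom space is split over an oriented monoid.** -/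
theorem exists_split (o : Q.Orientation (thK e K)) {n : ℕ} {J : Type} [Fintype J] [DecidableEq J]
    (f : Fin n → J) (hf : Function.Injective f) (hC : FC (Q.Cpow (Fin n)))
    (hTh : FC (LC.of (Th n J))) :
    ∃ g : F.S.obj ⟨LC.of (Th n J), hTh⟩ ⟶ K ⊗ F.S.obj ⟨Q.Cpow (Fin n), hC⟩,
      F.S.map (FCat.hom (X := ⟨Q.Cpow (Fin n), hC⟩) (Y := ⟨LC.of (Th n J), hTh⟩)
        (Th.incl' (Fintype.card_fin n) ≫ Th.inj (n := n) f hf)) ≫ g = un K _ := by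
  obtain ⟨t, ht, h⟩ := lin_cls o n
  obtain ⟨c, hc⟩ := MSys.mem_tdeg.mp ((mem_udeg hTh).mp (o.tau_deg n J))
  have h1 : o.lin (Fin n) = (thK e K).map (Th.incl' (Fintype.card_fin n) ≫
      Th.inj (n := n) f hf) (o.tau n J) := by
    have := o.goodTh
    rw [Q.MultTheory.map_comp, ← Q.map_incl' o (Fintype.card_fin n)]
    exact congrArg _ (Q.tau_map o n (injMat f) (injMat_isom hf)).symm
  have h2 : uev hC (umap (RSys K E) F (Th.incl' (Fintype.card_fin n) ≫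
      Th.inj (n := n) f hf) (o.tau n J)) = _ := uev_umap hC hTh _ _
  have h3 : uev hC (o.lin (Fin n)) = (RSys K E).tpull
      (F.S.map (FCat.hom (X := ⟨Q.Cpow (Fin n), hC⟩) (Y := ⟨LC.of (Th n J), hTh⟩)
        (Th.incl' (Fintype.card_fin n) ≫ Th.inj (n := n) f hf))) (uev hTh (o.tau n J)) := by
    rw [h1]
    exact h2
  have h4 := h.symm.trans h3
  rw [← hc, MSys.tpull_of] at h4
  have h5 := congrArg (hq K E (n : ℤ) _) (DirectSum.of_injective (n : ℤ) h4)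
  rw [hq_pull] at h5
  have h6 : F.S.map (FCat.hom (X := ⟨Q.Cpow (Fin n), hC⟩) (Y := ⟨LC.of (Th n J), hTh⟩)
      (Th.incl' (Fintype.card_fin n) ≫ Th.inj (n := n) f hf)) ≫ hq K E (n : ℤ) _ c =
      t ≫ un K (E.S n) := h5.symm
  refine ⟨hq K E (n : ℤ) _ c ≫ K ◁ inv t, ?_⟩
  rw [← Category.assoc, h6, Category.assoc, un_natural, IsIso.hom_inv_id_assoc]

/-- All inclusions of fibres of the Thom spaces `Th n J` are split over `R`. -/
def ThSplit (F : SpaceFunctor T) (R : T) [MonObj R] : Prop :=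
  ∀ (n : ℕ) (J : Type) [Fintype J] [DecidableEq J] (f : Fin n → J) (hf : Function.Injective f)
    (hC : FC (Q.Cpow (Fin n))) (hTh : FC (LC.of (Th n J))),
    ∃ g : F.S.obj ⟨LC.of (Th n J), hTh⟩ ⟶ R ⊗ F.S.obj ⟨Q.Cpow (Fin n), hC⟩,
      F.S.map (FCat.hom (X := ⟨Q.Cpow (Fin n), hC⟩) (Y := ⟨LC.of (Th n J), hTh⟩)
        (Th.incl' (Fintype.card_fin n) ≫ Th.inj (n := n) f hf)) ≫ g =
        (λ_ (F.S.obj ⟨Q.Cpow (Fin n), hC⟩)).inv ≫ η[R] ▷ F.S.obj ⟨Q.Cpow (Fin n), hC⟩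

theorem thSplit_of_orientation (o : Q.Orientation (thK e K)) : ThSplit F K :=
  fun _ _ _ _ f hf hC hTh => exists_split o f hf hC hTh

/-- **`MU` with all its properties.** -/
theorem exists_muAll_thSplit [IsTriangulated T] [MonoidalClosed T] [HasCoproducts.{0} T]
    [HasProducts.{0} T] [StableCat T] (F : SpaceFunctor T) (e : F.S.obj CCF ≅ (stdEven T).L) :
    ∃ D : MUData T, MUUniv e D ∧ N0.MUAll D ∧ ThSplit F D.R := by
  obtain ⟨M⟩ := nonempty_MUMon F (stdEven T) e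
  obtain ⟨b⟩ := M.nonempty_muBasis
  exact ⟨M.data b, M.muUniv b, N0.MUMon.muAll M b, thSplit_of_orientation M.ori⟩

end Vale.Agent.P093.N4.TS
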